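import Vale.Agent.P154.NegTrans.GeoMoment
import Vale.Agent.P154.NegTrans.Data.BSteps1
import Vale.Agent.P154.NegTrans.Data.BSteps2
import Vale.Agent.P154.NegTrans.Data.BSteps3
import Vale.Agent.P154.NegTrans.Data.BSteps4
import Vale.Agent.P154.NegTrans.Data.BSteps5
import Vale.Agent.P154.NegTrans.Data.BSteps6
import Vale.Agent.P154.NegTrans.Data.BSteps7
import Vale.Agent.P154.NegTrans.Data.BSteps8
import Vale.Agent.P154.NegTrans.Data.BSteps9
import Vale.Agent.P154.NegTrans.Data.BSteps10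
import Vale.Agent.P154.NegTrans.Data.BSteps11
import Vale.Agent.P154.NegTrans.Data.BSteps12
import Vale.Agent.P154.NegTrans.Data.BSteps13
import Vale.Agent.P154.NegTrans.Data.BSteps14
import Vale.Agent.P154.NegTrans.Data.BSteps15
import Vale.Agent.P154.NegTrans.Data.BSteps16
import Vale.Agent.P154.NegTrans.Data.BSteps17

/-!
The small moment on deep Poisson trees for `λ ∈ [-1/2, -49/100]`, by the computation B.
-/

set_option maxRecDepth 100000

namespace Vale.Agent.P154.NegTrans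

open D4

theorem pwB_le : ∀ k < pwB.length,
    ((pwB.getD k 0 : ℕ) : ℝ) / unitP ≤ GW.pois (((200 : ℕ) : ℝ) / (49 : ℕ)) k :=
  pw_lower (u := 59242112753) (v := 1000000000) (by norm_num) (by norm_num)
    ((exp_le (by norm_num) (by norm_num)).trans (by norm_num [Finset.sum_range_succ, Nat.factorial]))
    (by decide +kernel)

theorem upB (h : -1 ≤ (-((1 : ℕ) / (2 : ℕ)) : ℝ) * (((3 : ℕ) : ℝ) - 1)) (h' : (-((1 : ℕ) / (2 : ℕ)) : ℝ) ≤ 1) :
    Up h h' (((200 : ℕ) : ℝ) / (49 : ℕ)) 161 latB1 sB17 := by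
  have hd : (0 : ℝ) ≤ (((200 : ℕ) : ℝ) / (49 : ℕ)) := by positivity
  have u0 : Up h h' (((200 : ℕ) : ℝ) / (49 : ℕ)) 0 latB0 sB0 :=
    up_zero (G := latB0) (by decide +kernel) hd (by decide +kernel)
  have u1 := run_sound cB0Cfg cB0_ok rfl hd pwB_le 10 runB1 u0
  have u2 := run_sound cB0Cfg cB0_ok rfl hd pwB_le 10 runB2 u1
  have u3 := run_sound cB0Cfg cB0_ok rfl hd pwB_le 10 runB3 u2
  have u4 := run_sound cB0Cfg cB0_ok rfl hd pwB_le 10 runB4 u3
  have u5 := run_sound cB0Cfg cB0_ok rfl hd pwB_le 10 runB5 u4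
  have u6 := step_sound bB1Cfg latB1 bB1_ok rfl hd pwB_le runB6 validB6 u5
  have u7 := run_sound cB1Cfg cB1_ok rfl hd pwB_le 10 runB7 u6
  have u8 := run_sound cB1Cfg cB1_ok rfl hd pwB_le 10 runB8 u7
  have u9 := run_sound cB1Cfg cB1_ok rfl hd pwB_le 10 runB9 u8
  have u10 := run_sound cB1Cfg cB1_ok rfl hd pwB_le 10 runB10 u9
  have u11 := run_sound cB1Cfg cB1_ok rfl hd pwB_le 10 runB11 u10
  have u12 := run_sound cB1Cfg cB1_ok rfl hd pwB_le 10 runB12 u11
  have u13 := run_sound cB1Cfg cB1_ok rfl hd pwB_le 10 runB13 u12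
  have u14 := run_sound cB1Cfg cB1_ok rfl hd pwB_le 10 runB14 u13
  have u15 := run_sound cB1Cfg cB1_ok rfl hd pwB_le 10 runB15 u14
  have u16 := run_sound cB1Cfg cB1_ok rfl hd pwB_le 10 runB16 u15
  have u17 := run_sound cB1Cfg cB1_ok rfl hd pwB_le 10 runB17 u16
  exact u17

/-- For `λ ∈ [-1/2, -49/100]` and `n ≥ 161`: `E τ₀ (λ u) ≤ 113/1000 λ²` on Poisson trees. -/
theorem tau_smallB : ∀ n : ℕ, 161 ≤ n → ∀ (lam : ℝ) (hl : -(1 / (((3 : ℕ) : ℝ) - 1)) ≤ lam) (hl' : lam ≤ 1),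
    -(1 / 2 : ℝ) ≤ lam → lam ≤ -(49 / 100 : ℝ) → tauP lam hl hl' (1 / lam ^ 2) n ≤ (113 / 1000 : ℝ) * lam ^ 2 := by
  intro n hn lam hl hl' h1 h2
  refine tauP_le (lam0 := (-((1 : ℕ) / (2 : ℕ)) : ℝ)) (D := (((200 : ℕ) : ℝ) / (49 : ℕ))) (G := latB1) (s := sB17) (N := 161) (u := 965489384) (v := 1000000000)
    (num := 27541) (den := 1000000) (b := -(49 / 100 : ℝ)) (by decide +kernel) (upB (by norm_num) (by norm_num))
    (by norm_num) (by decide +kernel) (by norm_num) (by decide +kernel) hl hl' (by push_cast; linarith) h2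
    (by norm_num) (by norm_num) (by norm_num) hn

end Vale.Agent.P154.NegTrans
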