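import Vale.Agent.P154.NegTrans.GeoMoment
import Vale.Agent.P154.NegTrans.Data.CSteps1
import Vale.Agent.P154.NegTrans.Data.CSteps2
import Vale.Agent.P154.NegTrans.Data.CSteps3
import Vale.Agent.P154.NegTrans.Data.CSteps4
import Vale.Agent.P154.NegTrans.Data.CSteps5
import Vale.Agent.P154.NegTrans.Data.CSteps6
import Vale.Agent.P154.NegTrans.Data.CSteps7
import Vale.Agent.P154.NegTrans.Data.CSteps8
import Vale.Agent.P154.NegTrans.Data.CSteps9
import Vale.Agent.P154.NegTrans.Data.CSteps10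
import Vale.Agent.P154.NegTrans.Data.CSteps11
import Vale.Agent.P154.NegTrans.Data.CSteps12
import Vale.Agent.P154.NegTrans.Data.CSteps13
import Vale.Agent.P154.NegTrans.Data.CSteps14
import Vale.Agent.P154.NegTrans.Data.CSteps15
import Vale.Agent.P154.NegTrans.Data.CSteps16
import Vale.Agent.P154.NegTrans.Data.CSteps17
import Vale.Agent.P154.NegTrans.Data.CSteps18

/-!
The small moment on deep Poisson trees for `λ ∈ [-49/100, -12/25]`, by the computation C.
-/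

set_option maxRecDepth 100000

namespace Vale.Agent.P154.NegTrans

open D4

theorem pwC_le : ∀ k < pwC.length,
    ((pwC.getD k 0 : ℕ) : ℝ) / unitP ≤ GW.pois (((625 : ℕ) : ℝ) / (147 : ℕ)) k :=
  pw_lower (u := 70224740680) (v := 1000000000) (by norm_num) (by norm_num)
    ((exp_le (by norm_num) (by norm_num)).trans (by norm_num [Finset.sum_range_succ, Nat.factorial]))
    (by decide +kernel)

theorem upC (h : -1 ≤ (-((49 : ℕ) / (100 : ℕ)) : ℝ) * (((3 : ℕ) : ℝ) - 1)) (h' : (-((49 : ℕ) / (100 : ℕ)) : ℝ) ≤ 1) :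
    Up h h' (((625 : ℕ) : ℝ) / (147 : ℕ)) 171 latC1 sC18 := by
  have hd : (0 : ℝ) ≤ (((625 : ℕ) : ℝ) / (147 : ℕ)) := by positivity
  have u0 : Up h h' (((625 : ℕ) : ℝ) / (147 : ℕ)) 0 latC0 sC0 :=
    up_zero (G := latC0) (by decide +kernel) hd (by decide +kernel)
  have u1 := run_sound cC0Cfg cC0_ok rfl hd pwC_le 10 runC1 u0
  have u2 := run_sound cC0Cfg cC0_ok rfl hd pwC_le 10 runC2 u1
  have u3 := run_sound cC0Cfg cC0_ok rfl hd pwC_le 10 runC3 u2
  have u4 := run_sound cC0Cfg cC0_ok rfl hd pwC_le 10 runC4 u3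
  have u5 := run_sound cC0Cfg cC0_ok rfl hd pwC_le 10 runC5 u4
  have u6 := step_sound bC1Cfg latC1 bC1_ok rfl hd pwC_le runC6 validC6 u5
  have u7 := run_sound cC1Cfg cC1_ok rfl hd pwC_le 10 runC7 u6
  have u8 := run_sound cC1Cfg cC1_ok rfl hd pwC_le 10 runC8 u7
  have u9 := run_sound cC1Cfg cC1_ok rfl hd pwC_le 10 runC9 u8
  have u10 := run_sound cC1Cfg cC1_ok rfl hd pwC_le 10 runC10 u9
  have u11 := run_sound cC1Cfg cC1_ok rfl hd pwC_le 10 runC11 u10
  have u12 := run_sound cC1Cfg cC1_ok rfl hd pwC_le 10 runC12 u11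
  have u13 := run_sound cC1Cfg cC1_ok rfl hd pwC_le 10 runC13 u12
  have u14 := run_sound cC1Cfg cC1_ok rfl hd pwC_le 10 runC14 u13
  have u15 := run_sound cC1Cfg cC1_ok rfl hd pwC_le 10 runC15 u14
  have u16 := run_sound cC1Cfg cC1_ok rfl hd pwC_le 10 runC16 u15
  have u17 := run_sound cC1Cfg cC1_ok rfl hd pwC_le 10 runC17 u16
  have u18 := run_sound cC1Cfg cC1_ok rfl hd pwC_le 10 runC18 u17
  exact u18

/-- For `λ ∈ [-49/100, -12/25]` and `n ≥ 171`: `E τ₀ (λ u) ≤ 113/1000 λ²` on Poisson trees. -/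
theorem tau_smallC : ∀ n : ℕ, 171 ≤ n → ∀ (lam : ℝ) (hl : -(1 / (((3 : ℕ) : ℝ) - 1)) ≤ lam) (hl' : lam ≤ 1),
    -(49 / 100 : ℝ) ≤ lam → lam ≤ -(12 / 25 : ℝ) → tauP lam hl hl' (1 / lam ^ 2) n ≤ (113 / 1000 : ℝ) * lam ^ 2 := by
  intro n hn lam hl hl' h1 h2
  refine tauP_le (lam0 := (-((49 : ℕ) / (100 : ℕ)) : ℝ)) (D := (((625 : ℕ) : ℝ) / (147 : ℕ))) (G := latC1) (s := sC18) (N := 171) (u := 965489384) (v := 1000000000)
    (num := 26372) (den := 1000000) (b := -(12 / 25 : ℝ)) (by decide +kernel) (upC (by norm_num) (by norm_num))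
    (by norm_num) (by decide +kernel) (by norm_num) (by decide +kernel) hl hl' (by push_cast; linarith) h2
    (by norm_num) (by norm_num) (by norm_num) hn

end Vale.Agent.P154.NegTrans
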