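import Vale.Agent.P154.NegTrans.GeoMoment
import Vale.Agent.P154.NegTrans.Data.DSteps1
import Vale.Agent.P154.NegTrans.Data.DSteps2
import Vale.Agent.P154.NegTrans.Data.DSteps3
import Vale.Agent.P154.NegTrans.Data.DSteps4
import Vale.Agent.P154.NegTrans.Data.DSteps5
import Vale.Agent.P154.NegTrans.Data.DSteps6
import Vale.Agent.P154.NegTrans.Data.DSteps7
import Vale.Agent.P154.NegTrans.Data.DSteps8
import Vale.Agent.P154.NegTrans.Data.DSteps9
import Vale.Agent.P154.NegTrans.Data.DSteps10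
import Vale.Agent.P154.NegTrans.Data.DSteps11
import Vale.Agent.P154.NegTrans.Data.DSteps12
import Vale.Agent.P154.NegTrans.Data.DSteps13
import Vale.Agent.P154.NegTrans.Data.DSteps14
import Vale.Agent.P154.NegTrans.Data.DSteps15

/-!
The small moment on deep Poisson trees for `λ ∈ [-12/25, -473/1000]`, by the computation D.
-/

set_option maxRecDepth 100000

namespace Vale.Agent.P154.NegTrans

open D4

theorem pwD_le : ∀ k < pwD.length,
    ((pwD.getD k 0 : ℕ) : ℝ) / unitP ≤ GW.pois (((6250 : ℕ) : ℝ) / (1419 : ℕ)) k :=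
  pw_lower (u := 81819059564) (v := 1000000000) (by norm_num) (by norm_num)
    ((exp_le (by norm_num) (by norm_num)).trans (by norm_num [Finset.sum_range_succ, Nat.factorial]))
    (by decide +kernel)

theorem upD (h : -1 ≤ (-((12 : ℕ) / (25 : ℕ)) : ℝ) * (((3 : ℕ) : ℝ) - 1)) (h' : (-((12 : ℕ) / (25 : ℕ)) : ℝ) ≤ 1) :
    Up h h' (((6250 : ℕ) : ℝ) / (1419 : ℕ)) 141 latD1 sD15 := by
  have hd : (0 : ℝ) ≤ (((6250 : ℕ) : ℝ) / (1419 : ℕ)) := by positivity
  have u0 : Up h h' (((6250 : ℕ) : ℝ) / (1419 : ℕ)) 0 latD0 sD0 :=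
    up_zero (G := latD0) (by decide +kernel) hd (by decide +kernel)
  have u1 := run_sound cD0Cfg cD0_ok rfl hd pwD_le 10 runD1 u0
  have u2 := run_sound cD0Cfg cD0_ok rfl hd pwD_le 10 runD2 u1
  have u3 := run_sound cD0Cfg cD0_ok rfl hd pwD_le 10 runD3 u2
  have u4 := run_sound cD0Cfg cD0_ok rfl hd pwD_le 10 runD4 u3
  have u5 := run_sound cD0Cfg cD0_ok rfl hd pwD_le 10 runD5 u4
  have u6 := step_sound bD1Cfg latD1 bD1_ok rfl hd pwD_le runD6 validD6 u5
  have u7 := run_sound cD1Cfg cD1_ok rfl hd pwD_le 10 runD7 u6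
  have u8 := run_sound cD1Cfg cD1_ok rfl hd pwD_le 10 runD8 u7
  have u9 := run_sound cD1Cfg cD1_ok rfl hd pwD_le 10 runD9 u8
  have u10 := run_sound cD1Cfg cD1_ok rfl hd pwD_le 10 runD10 u9
  have u11 := run_sound cD1Cfg cD1_ok rfl hd pwD_le 10 runD11 u10
  have u12 := run_sound cD1Cfg cD1_ok rfl hd pwD_le 10 runD12 u11
  have u13 := run_sound cD1Cfg cD1_ok rfl hd pwD_le 10 runD13 u12
  have u14 := run_sound cD1Cfg cD1_ok rfl hd pwD_le 10 runD14 u13
  have u15 := run_sound cD1Cfg cD1_ok rfl hd pwD_le 10 runD15 u14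
  exact u15

/-- For `λ ∈ [-12/25, -473/1000]` and `n ≥ 141`: `E τ₀ (λ u) ≤ 47/500 λ²` on Poisson trees. -/
theorem tau_smallD : ∀ n : ℕ, 141 ≤ n → ∀ (lam : ℝ) (hl : -(1 / (((3 : ℕ) : ℝ) - 1)) ≤ lam) (hl' : lam ≤ 1),
    -(12 / 25 : ℝ) ≤ lam → lam ≤ -(473 / 1000 : ℝ) → tauP lam hl hl' (1 / lam ^ 2) n ≤ (47 / 500 : ℝ) * lam ^ 2 := by
  intro n hn lam hl hl' h1 h2
  refine tauP_le (lam0 := (-((12 : ℕ) / (25 : ℕ)) : ℝ)) (D := (((6250 : ℕ) : ℝ) / (1419 : ℕ))) (G := latD1) (s := sD15) (N := 141) (u := 965489384) (v := 1000000000)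
    (num := 21316) (den := 1000000) (b := -(473 / 1000 : ℝ)) (by decide +kernel) (upD (by norm_num) (by norm_num))
    (by norm_num) (by decide +kernel) (by norm_num) (by decide +kernel) hl hl' (by push_cast; linarith) h2
    (by norm_num) (by norm_num) (by norm_num) hn

end Vale.Agent.P154.NegTrans
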