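import Vale.Agent.P154.NegTrans.Run

/-!
From an upper family at one depth to the small moment on all deeper Poisson trees, for all `λ` of
an interval.
-/

namespace Vale.Agent.P154.NegTrans

open Finset D4

/-- Minus the geometric mean. -/
noncomputable def gmF (x : Fin 3 → ℝ) : ℝ := -((x 0 * x 1 * x 2) ^ (1 / 3 : ℝ))

lemma gmF_split {a : Fin 3 → ℝ} (ha : NN a) : gmF a =
    -((a 0) ^ (1 / 3 : ℝ) * (a 1) ^ (1 / 3 : ℝ) * (a 2) ^ (1 / 3 : ℝ)) := by
  rw [gmF, Real.mul_rpow (mul_nonneg (ha 0) (ha 1)) (ha 2), Real.mul_rpow (ha 0) (ha 1)]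

lemma gmF_add {x y : Fin 3 → ℝ} (hx : NN x) (hy : NN y) : gmF (x + y) ≤ gmF x + gmF y := by
  by_cases hz : ∃ i, x i + y i = 0
  · obtain ⟨i, hi⟩ := hz
    have hx0 : x i = 0 := by linarith [hx i, hy i]
    have hy0 : y i = 0 := by linarith [hx i, hy i]
    fin_cases i <;> simp at hx0 hy0 <;> simp [gmF, hx0, hy0]
  push Not at hz
  have hp : ∀ i, 0 < x i + y i := fun i =>
    lt_of_le_of_ne (add_nonneg (hx i) (hy i)) (Ne.symm (hz i))
  have amgm : ∀ a : Fin 3 → ℝ, NN a →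
      -gmF a ≤ (-gmF (x + y)) * (1 / 3 * (a 0 / (x 0 + y 0)) + 1 / 3 * (a 1 / (x 1 + y 1)) +
        1 / 3 * (a 2 / (x 2 + y 2))) := by
    intro a ha
    have h := Real.geom_mean_le_arith_mean3_weighted (w₁ := 1 / 3) (w₂ := 1 / 3) (w₃ := 1 / 3)
      (by norm_num) (by norm_num) (by norm_num) (div_nonneg (ha 0) (hp 0).le)
      (div_nonneg (ha 1) (hp 1).le) (div_nonneg (ha 2) (hp 2).le) (by norm_num)
    have hs : NN (x + y) := fun i => (hp i).le
    have p0 := Real.rpow_pos_of_pos (hp 0) (1 / 3 : ℝ)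
    have p1 := Real.rpow_pos_of_pos (hp 1) (1 / 3 : ℝ)
    have p2 := Real.rpow_pos_of_pos (hp 2) (1 / 3 : ℝ)
    rw [gmF_split hs, gmF_split ha, neg_neg, neg_neg]
    simp only [Pi.add_apply]
    rw [Real.div_rpow (ha 0) (hp 0).le, Real.div_rpow (ha 1) (hp 1).le,
      Real.div_rpow (ha 2) (hp 2).le] at h
    refine le_trans (le_of_eq ?_) (mul_le_mul_of_nonneg_left h
      (mul_pos (mul_pos p0 p1) p2).le)
    field_simp
  have h1 := amgm x hx
  have h2 := amgm y hy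
  have e : 1 / 3 * (x 0 / (x 0 + y 0)) + 1 / 3 * (x 1 / (x 1 + y 1)) +
      1 / 3 * (x 2 / (x 2 + y 2)) + (1 / 3 * (y 0 / (x 0 + y 0)) + 1 / 3 * (y 1 / (x 1 + y 1)) +
      1 / 3 * (y 2 / (x 2 + y 2))) = 1 := by
    have := (hp 0).ne'; have := (hp 1).ne'; have := (hp 2).ne'
    field_simp
    ring
  have := add_le_add h1 h2
  rw [← mul_add, e, mul_one] at this
  linarith

lemma gmF_test : Test gmF := by
  refine ⟨⟨fun x y hx hy => gmF_add hx hy, fun c hc x hx => ?_⟩, fun σ x => ?_, ?_⟩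
  · have h3 : (c ^ 3 : ℝ) ^ (1 / 3 : ℝ) = c := by
      rw [show (1 / 3 : ℝ) = ((3 : ℕ) : ℝ)⁻¹ by norm_num, Real.pow_rpow_inv_natCast hc (by norm_num)]
    simp only [gmF, Pi.smul_apply, smul_eq_mul]
    rw [show c * x 0 * (c * x 1) * (c * x 2) = c ^ 3 * (x 0 * x 1 * x 2) by ring,
      Real.mul_rpow (pow_nonneg hc 3) (mul_nonneg (mul_nonneg (hx 0) (hx 1)) (hx 2)), h3]
    ring
  · have h := Equiv.prod_comp σ x
    simp only [Fin.prod_univ_three] at h
    simp only [gmF, h]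
  · simp [gmF, v100]

/-- `E τ₀ (λ u)` on Poisson trees of depth `n`, `τ₀ = 1 - aff (1/3, 1/3, 1/3)`. -/
noncomputable def tauP (lam : ℝ) (hl : -(1 / (((3 : ℕ) : ℝ) - 1)) ≤ lam) (hl' : lam ≤ 1) (d : ℝ)
    (n : ℕ) : ℝ :=
  ∑' T : Tree n, gwWeight d n T * (treeLaw two_le lam hl hl' n T).E
    (fun u => 1 - aff (fun _ => (1 / 3 : ℝ)) fun i => lam * u i)

lemma tauP_eq (lam : ℝ) (hl : -(1 / (((3 : ℕ) : ℝ) - 1)) ≤ lam) (hl' : lam ≤ 1) {d : ℝ}
    (hd : 0 ≤ d) (n : ℕ) :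
    tauP lam hl hl' d n = 1 + edge (lam_channel two_le hl) hl' d n gmF := by
  have hch := lam_channel two_le hl
  obtain ⟨C, hC⟩ := subP_bound gmF_test.subP
  have key : ∀ T : Tree n, (treeLaw two_le lam hl hl' n T).E
      (fun u => 1 - aff (fun _ => (1 / 3 : ℝ)) fun i => lam * u i) =
      1 + (Tr.treeE lam hch hl' n T).S fun w => gmF (Tr.chanV lam w) := by
    intro T
    rw [← treeE_eq_treeLaw two_le lam hl hl', Tr.Ens.E]
    have hp : ∀ w : Fin 3 → ℝ, NN w →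
        Tr.pers (fun u => 1 - aff (fun _ => (1 / 3 : ℝ)) fun i => lam * u i) w =
          Tr.mean w + gmF (Tr.chanV lam w) := by
      intro w hw
      set m := Tr.mean w with hm
      have hm0 : 0 ≤ m := Tr.mean_nonneg hw
      rcases hm0.eq_or_lt with h0 | h0
      · have := Tr.eq_zero_of_mean (by norm_num) hw h0.symm
        subst this
        simp [Tr.pers, gmF, Tr.chanV, Tr.mean, hm]
      have hd' : ∀ i, 0 ≤ 1 + lam * Tr.dev w i := fun i => by
        have := (((Tr.good_dev (by norm_num) hw h0.ne').scale two_le hl hl').2 i)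
        linarith
      have hc : ∀ i, Tr.chanV lam w i = m * (1 + lam * Tr.dev w i) := fun i => by
        simp only [Tr.chanV, Tr.dev, ← hm]
        field_simp
        ring
      rw [Tr.pers, ← hm, gmF]
      simp only [hc, aff, Fin.prod_univ_three]
      rw [show m * (1 + lam * Tr.dev w 0) * (m * (1 + lam * Tr.dev w 1)) *
          (m * (1 + lam * Tr.dev w 2)) = m ^ 3 * ((1 + lam * Tr.dev w 0) *
          (1 + lam * Tr.dev w 1) * (1 + lam * Tr.dev w 2)) by ring,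
        Real.mul_rpow (by positivity) (mul_nonneg (mul_nonneg (hd' 0) (hd' 1)) (hd' 2)),
        show (1 / 3 : ℝ) = ((3 : ℕ) : ℝ)⁻¹ by norm_num,
        Real.pow_rpow_inv_natCast hm0 (by norm_num),
        Real.mul_rpow (mul_nonneg (hd' 0) (hd' 1)) (hd' 2), Real.mul_rpow (hd' 0) (hd' 1)]
      ring
    refine (sum_congr rfl fun x _ => hp _ ((Tr.treeE lam hch hl' n T).nonneg x)).trans ?_
    rw [sum_add_distrib]
    exact congrArg₂ (· + ·) (ens_mean _) rfl
  rw [tauP]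
  simp only [key]
  show Tr.ev (gwWeight d n) _ = _
  rw [Tr.ev]
  have := ev_add_const (Tr.prob1_gw hd n) (f := fun T =>
    (Tr.treeE lam hch hl' n T).S fun w => gmF (Tr.chanV lam w)) (B := C * 3)
    (fun T => by rw [← Tr.Ens.S_chanE _ lam hch hl']; exact ens_bound hC _) 1
  simp only [add_comm _ (1 : ℝ)] at this
  exact this

/-- Lower bound of the total of the geometric means, in units of `2 ^ (-64)`. -/
def gmLow (u v : ℕ) (reps : List (ℕ × ℕ × ℕ)) (W : List ℕ) : ℕ :=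
  ((W.zip reps).map fun we =>
    6 * we.1 * u ^ (we.2.1 + we.2.2.1 + we.2.2.2) / v ^ (we.2.1 + we.2.2.1 + we.2.2.2)).sum

lemma gm_family {G : D4.Lat} (hG : G.good = true) {u v : ℕ} (hv : 0 < v)
    (huv : u ^ 3 * G.q ≤ G.p * v ^ 3) {s : State} (hs : G.valid s = true) :
    lsum (family G s) gmF ≤ -((gmLow u v G.reps s.W : ℕ) : ℝ) / unitP := by
  have hu0 := unitP_pos
  have hq := (D4.Lat.good.p_pos hG).2
  have hv' : (0 : ℝ) < v := Nat.cast_pos.2 hv
  have ht := (t_pos hG).le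
  rw [family_test s (restW_nonneg hG hs) gmF_test, show gmF v110 = 0 by simp [gmF, v110],
    mul_zero, add_zero, fvecs, lsum_map, lsum_base, gmLow, Nat.cast_list_sum, List.map_map,
    ← neg_one_mul, mul_div_assoc, lsum]
  set L := s.W.zip G.reps
  have hc : ((u : ℝ) / v) ^ 3 ≤ G.t := by
    rw [div_pow, D4.Lat.t, div_le_div_iff₀ (pow_pos hv' 3) hq]
    exact_mod_cast huv
  show lsum L _ ≤ -1 * (lsum L _ / unitP)
  rw [div_eq_mul_inv, ← lsum_mul_right, ← lsum_mul_left]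
  refine lsum_le fun we _ => ?_
  obtain ⟨W, i, j, k⟩ := we
  simp only [Function.comp, fV_eq, gmF, Matrix.cons_val_zero, Matrix.cons_val_one,
    Matrix.cons_val]
  have hr : ((u : ℝ) / v) ^ (i + j + k) ≤ (G.t ^ (i + j + k)) ^ (1 / 3 : ℝ) := by
    have h3 : ((((u : ℝ) / v) ^ (i + j + k)) ^ 3) ^ (1 / 3 : ℝ) = ((u : ℝ) / v) ^ (i + j + k) := by
      rw [show (1 / 3 : ℝ) = ((3 : ℕ) : ℝ)⁻¹ by norm_num,
        Real.pow_rpow_inv_natCast (by positivity) (by norm_num)]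
    rw [← h3]
    refine Real.rpow_le_rpow (by positivity) ?_ (by norm_num)
    rw [← pow_mul, mul_comm (i + j + k) 3, pow_mul]
    exact pow_le_pow_left₀ (by positivity) hc _
  set a := (W : ℝ) / unitP with ha
  have ha0 : 0 ≤ a := div_nonneg (Nat.cast_nonneg W) hu0.le
  have hterm : ∀ m n l : ℕ, m + n + l = i + j + k →
      (a * G.t ^ m * (a * G.t ^ n) * (a * G.t ^ l)) ^ (1 / 3 : ℝ) =
        a * (G.t ^ (i + j + k)) ^ (1 / 3 : ℝ) := by
    intro m n l h
    rw [← h, show a * G.t ^ m * (a * G.t ^ n) * (a * G.t ^ l) = a ^ 3 * G.t ^ (m + n + l) by ring,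
      Real.mul_rpow (by positivity) (pow_nonneg ht _), show (1 / 3 : ℝ) = ((3 : ℕ) : ℝ)⁻¹ by norm_num,
      Real.pow_rpow_inv_natCast ha0 (by norm_num)]
  rw [hterm i j k rfl, hterm i k j (by omega), hterm j i k (by omega), hterm j k i (by omega),
    hterm k i j (by omega), hterm k j i (by omega)]
  have hfl := (Nat.cast_div_le (α := ℝ) (m := 6 * W * u ^ (i + j + k)) (n := v ^ (i + j + k)))
  push_cast at hfl
  rw [mul_div_assoc, ← div_pow] at hfl
  have h1 := mul_le_mul_of_nonneg_left hr ha0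
  have h2 := div_le_div_of_nonneg_right hfl hu0.le
  rw [show 6 * (W : ℝ) * ((u : ℝ) / v) ^ (i + j + k) / unitP = 6 * (a * ((u : ℝ) / v) ^ (i + j + k))
    by rw [ha]; ring] at h2
  rw [← div_eq_mul_inv]
  linarith

variable {lam0 D : ℝ} {h : -1 ≤ lam0 * (((3 : ℕ) : ℝ) - 1)} {h' : lam0 ≤ 1}

lemma edge_congr {a b : ℝ} (hab : a = b) (ha : -1 ≤ a * (((3 : ℕ) : ℝ) - 1)) (ha' : a ≤ 1)
    (hb : -1 ≤ b * (((3 : ℕ) : ℝ) - 1)) (hb' : b ≤ 1) (d : ℝ) (n : ℕ) (g : (Fin 3 → ℝ) → ℝ) :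
    edge ha ha' d n g = edge hb hb' d n g := by
  subst hab; rfl

/-- An upper family at depth `N` bounds the small moment at all depths `n ≥ N`. -/
theorem tauP_le {G : D4.Lat} (hG : G.good = true) {s : State} {N u v num den : ℕ}
    (hup : Up h h' D N G s) (hv : 0 < v) (huv : u ^ 3 * G.q ≤ G.p * v ^ 3) (hden : 0 < den)
    (hgm : 2 ^ bitsW * den ≤ gmLow u v G.reps s.W * den + 2 ^ bitsW * num)
    {lam b m0 : ℝ} (hl : -(1 / (((3 : ℕ) : ℝ) - 1)) ≤ lam) (hl' : lam ≤ 1) (hlam : lam0 ≤ lam)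
    (hb : lam ≤ b) (hb0 : b < 0) (hD : 1 ≤ D * (b * lam0)) (hm : D * ((num : ℝ) / den) ≤ m0)
    {n : ℕ} (hn : N ≤ n) : tauP lam hl hl' (1 / lam ^ 2) n ≤ m0 * lam ^ 2 := by
  have hl0 : lam < 0 := hb.trans_lt hb0
  have h00 : lam0 < 0 := hlam.trans_lt hl0
  set μ := lam / lam0 with hμ
  have hμ0 : 0 ≤ μ := div_nonneg_of_nonpos hl0.le h00.le
  have hμ1 : μ ≤ 1 := (div_le_one_of_neg h00).2 hlam
  have he : lam = μ * lam0 := by rw [hμ]; exact (div_mul_cancel₀ _ h00.ne).symm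
  have hbl : 0 < b * lam0 := mul_pos_of_neg_of_neg hb0 h00
  have hD0 : 0 ≤ D := by nlinarith
  have hprod : 1 ≤ D * (lam * lam0) :=
    hD.trans (mul_le_mul_of_nonneg_left (mul_le_mul_of_nonpos_right hb h00.le) hD0)
  set d := 1 / lam ^ 2 with hd
  have hd0 : 0 ≤ d := by positivity
  have hdμ : d * μ ≤ D := by
    rw [hd, hμ, show 1 / lam ^ 2 * (lam / lam0) = 1 / (lam * lam0) by field_simp,
      div_le_iff₀ (mul_pos_of_neg_of_neg hl0 h00)]
    linarith
  set B : ℝ := (num : ℝ) / den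
  have hlim : 1 + edge h h' D n gmF ≤ B := by
    have hanti : Antitone fun k => edge h h' D k gmF :=
      antitone_nat_of_succ_le fun k => root_antitone h h' hD0 k _ (subP_chan gmF_test.subP h h')
    have h1 := ((hanti hn).trans (hup.2 gmF gmF_test)).trans (gm_family hG hv huv hup.1)
    have h2 := (Nat.cast_le (α := ℝ)).2 hgm
    have hu : ((2 : ℝ) ^ bitsW) = unitP := rfl
    push_cast [hu] at h2
    have hu0 := unitP_pos
    have hden' : (0 : ℝ) < den := Nat.cast_pos.2 hden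
    have h3 : 1 - B ≤ ((gmLow u v G.reps s.W : ℕ) : ℝ) / unitP := by
      rw [le_div_iff₀ hu0, sub_mul, one_mul, sub_le_iff_le_add,
        show (num : ℝ) / den * unitP = (unitP * num) / den by ring, ← sub_le_iff_le_add',
        le_div_iff₀ hden']
      linarith
    rw [neg_div] at h1
    linarith
  have hdom : tauP lam hl hl' d n ≤ μ * B := by
    rw [tauP_eq lam hl hl' hd0 n]
    have hm' : -1 ≤ μ * lam0 * (((3 : ℕ) : ℝ) - 1) := he ▸ lam_channel two_le hl
    have hm'' : μ * lam0 ≤ 1 := he ▸ hl'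
    have e : edge (lam_channel two_le hl) hl' d n gmF = edge hm' hm'' d n gmF := by
      exact edge_congr he _ _ _ _ _ _ _
    rw [e]
    obtain ⟨C, hC⟩ := subP_bound gmF_test.subP
    have g1 : gmF (fun _ => 1) = -1 := by simp [gmF]
    have hmix : edge hm' hm'' d n gmF ≤ μ * edge h h' D n gmF + (1 - μ) * gmF (fun _ => 1) := by
      have hb' : ∀ t, |μ * (Tr.treeE (μ * lam0) hm' hm'' n t).S fun w =>
          gmF (Tr.chanV lam0 w)| ≤ |μ| * (C * 3) := fun t => by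
        rw [abs_mul, ← Tr.Ens.S_chanE _ lam0 h h']
        exact mul_le_mul_of_nonneg_left (ens_bound hC _) (abs_nonneg _)
      refine le_trans (b := Tr.ev (gwWeight d n) fun t =>
        (μ * (Tr.treeE (μ * lam0) hm' hm'' n t).S fun w => gmF (Tr.chanV lam0 w)) +
          (1 - μ) * gmF fun _ => 1) ?_ ?_
      · refine ev_le_ev (Tr.prob1_gw hd0 n) (B := C * 3) (fun t => ?_)
          (fun t => (abs_add_le _ _).trans (add_le_add (hb' t) le_rfl)) fun t => ?_
        · rw [← Tr.Ens.S_chanE _ (μ * lam0) hm' hm'']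
          exact ens_bound hC _
        · exact S_chan_mixture gmF_test.subP h h' hμ0 hμ1 _
      · rw [ev_add_const (Tr.prob1_gw hd0 n) hb', ev_mul_left]
        exact add_le_add (mul_le_mul_of_nonneg_left (root_dominated h h' hm' hm'' hd0 hD0 hμ0
          hμ1 hdμ n _ (subP_chan gmF_test.subP h h')) hμ0) le_rfl
    rw [g1] at hmix
    have := mul_le_mul_of_nonneg_left hlim hμ0
    linarith
  refine hdom.trans ?_
  have hB : 0 ≤ B := by positivity
  have h2 : μ ≤ D * lam ^ 2 := by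
    rw [hμ, div_le_iff_of_neg h00]
    nlinarith
  calc μ * B ≤ D * lam ^ 2 * B := mul_le_mul_of_nonneg_right h2 hB
    _ = D * B * lam ^ 2 := by ring
    _ ≤ m0 * lam ^ 2 := mul_le_mul_of_nonneg_right hm (sq_nonneg lam)

end Vale.Agent.P154.NegTrans
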