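import Vale.Agent.P154.NegTrans.GeoMoment
import Vale.Agent.P154.NegTrans.Data.ASteps1
import Vale.Agent.P154.NegTrans.Data.ASteps2
import Vale.Agent.P154.NegTrans.Data.ASteps3
import Vale.Agent.P154.NegTrans.Data.ASteps4
import Vale.Agent.P154.NegTrans.Data.ASteps5
import Vale.Agent.P154.NegTrans.Data.ASteps6
import Vale.Agent.P154.NegTrans.Data.ASteps7
import Vale.Agent.P154.NegTrans.Data.ASteps8
import Vale.Agent.P154.NegTrans.Data.ASteps9
import Vale.Agent.P154.NegTrans.Data.ASteps10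
import Vale.Agent.P154.NegTrans.Data.ASteps11
import Vale.Agent.P154.NegTrans.Data.ASteps12
import Vale.Agent.P154.NegTrans.Data.ASteps13
import Vale.Agent.P154.NegTrans.Data.ASteps14

/-!
The small moment on deep Poisson trees for `λ ∈ [-1/2, -497/1000]`, by the computation A.
-/

set_option maxRecDepth 100000

namespace Vale.Agent.P154.NegTrans

open D4

theorem pwA_le : ∀ k < pwA.length,
    ((pwA.getD k 0 : ℕ) : ℝ) / unitP ≤ GW.pois (((2000 : ℕ) : ℝ) / (497 : ℕ)) k :=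
  pw_lower (u := 55932458759) (v := 1000000000) (by norm_num) (by norm_num)
    ((exp_le (by norm_num) (by norm_num)).trans (by norm_num [Finset.sum_range_succ, Nat.factorial]))
    (by decide +kernel)

theorem upA (h : -1 ≤ (-((1 : ℕ) / (2 : ℕ)) : ℝ) * (((3 : ℕ) : ℝ) - 1)) (h' : (-((1 : ℕ) / (2 : ℕ)) : ℝ) ≤ 1) :
    Up h h' (((2000 : ℕ) : ℝ) / (497 : ℕ)) 131 latA1 sA14 := by
  have hd : (0 : ℝ) ≤ (((2000 : ℕ) : ℝ) / (497 : ℕ)) := by positivity
  have u0 : Up h h' (((2000 : ℕ) : ℝ) / (497 : ℕ)) 0 latA0 sA0 :=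
    up_zero (G := latA0) (by decide +kernel) hd (by decide +kernel)
  have u1 := run_sound cA0Cfg cA0_ok rfl hd pwA_le 10 runA1 u0
  have u2 := run_sound cA0Cfg cA0_ok rfl hd pwA_le 10 runA2 u1
  have u3 := run_sound cA0Cfg cA0_ok rfl hd pwA_le 10 runA3 u2
  have u4 := run_sound cA0Cfg cA0_ok rfl hd pwA_le 10 runA4 u3
  have u5 := step_sound bA1Cfg latA1 bA1_ok rfl hd pwA_le runA5 validA5 u4
  have u6 := run_sound cA1Cfg cA1_ok rfl hd pwA_le 10 runA6 u5
  have u7 := run_sound cA1Cfg cA1_ok rfl hd pwA_le 10 runA7 u6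
  have u8 := run_sound cA1Cfg cA1_ok rfl hd pwA_le 10 runA8 u7
  have u9 := run_sound cA1Cfg cA1_ok rfl hd pwA_le 10 runA9 u8
  have u10 := run_sound cA1Cfg cA1_ok rfl hd pwA_le 10 runA10 u9
  have u11 := run_sound cA1Cfg cA1_ok rfl hd pwA_le 10 runA11 u10
  have u12 := run_sound cA1Cfg cA1_ok rfl hd pwA_le 10 runA12 u11
  have u13 := run_sound cA1Cfg cA1_ok rfl hd pwA_le 10 runA13 u12
  have u14 := run_sound cA1Cfg cA1_ok rfl hd pwA_le 10 runA14 u13
  exact u14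

/-- For `λ ∈ [-1/2, -497/1000]` and `n ≥ 131`: `E τ₀ (λ u) ≤ 3/40 λ²` on Poisson trees. -/
theorem tau_smallA : ∀ n : ℕ, 131 ≤ n → ∀ (lam : ℝ) (hl : -(1 / (((3 : ℕ) : ℝ) - 1)) ≤ lam) (hl' : lam ≤ 1),
    -(1 / 2 : ℝ) ≤ lam → lam ≤ -(497 / 1000 : ℝ) → tauP lam hl hl' (1 / lam ^ 2) n ≤ (3 / 40 : ℝ) * lam ^ 2 := by
  intro n hn lam hl hl' h1 h2
  refine tauP_le (lam0 := (-((1 : ℕ) / (2 : ℕ)) : ℝ)) (D := (((2000 : ℕ) : ℝ) / (497 : ℕ))) (G := latA1) (s := sA14) (N := 131) (u := 965489384) (v := 1000000000)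
    (num := 18518) (den := 1000000) (b := -(497 / 1000 : ℝ)) (by decide +kernel) (upA (by norm_num) (by norm_num))
    (by norm_num) (by decide +kernel) (by norm_num) (by decide +kernel) hl hl' (by push_cast; linarith) h2
    (by norm_num) (by norm_num) (by norm_num) hn

end Vale.Agent.P154.NegTrans
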