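import Vale.Agent.P154.D4.Order
import Vale.Agent.P154.PoissonMono

/-!
Sublinear functions on the orthant are bounded by the total, and averages of bounded functions.
-/

namespace Vale.Agent.P154.NegTrans

open Finset Tr D4

variable {G : (Fin 3 → ℝ) → ℝ}

lemma subP_zero (hG : SubP G) : G 0 = 0 := by
  simpa using hG.smul 0 le_rfl 0 fun _ => le_rfl

lemma subP_sum (hG : SubP G) {α : Type*} (s : Finset α) (f : α → Fin 3 → ℝ)
    (hf : ∀ a ∈ s, NN (f a)) : G (∑ a ∈ s, f a) ≤ ∑ a ∈ s, G (f a) :=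
  Finset.le_sum_of_subadditive_on_pred G NN (subP_zero hG).le hG.add
    (fun _ _ hx hy i => add_nonneg (hx i) (hy i)) _ hf

/-- The best upper bound: the value at the unit vectors. -/
lemma subP_le_coord (hG : SubP G) {x : Fin 3 → ℝ} (hx : NN x) :
    G x ≤ ∑ i, x i * G fun j => if i = j then 1 else 0 := by
  have hu : ∀ i : Fin 3, NN fun j => if i = j then (1 : ℝ) else 0 := fun i j => by
    by_cases h : i = j <;> simp [h]
  have he : x = ∑ i, x i • fun j => if i = j then (1 : ℝ) else 0 := by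
    funext j; simp [Finset.sum_apply]
  conv_lhs => rw [he]
  refine (subP_sum hG univ _ fun i _ j => mul_nonneg (hx i) (hu i j)).trans (le_of_eq ?_)
  exact sum_congr rfl fun i _ => hG.smul _ (hx i) _ (hu i)

lemma subP_bound (hG : SubP G) : ∃ C, ∀ x, NN x → |G x| ≤ C * (x 0 + x 1 + x 2) := by
  set u : Fin 3 → ℝ := fun i => G fun j => if i = j then 1 else 0
  set A := |u 0| + |u 1| + |u 2|
  have hA : ∀ i, |u i| ≤ A := fun i => by
    have := abs_nonneg (u 0); have := abs_nonneg (u 1); have := abs_nonneg (u 2)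
    fin_cases i <;> simp [A] <;> linarith
  have up : ∀ x, NN x → G x ≤ A * (x 0 + x 1 + x 2) := fun x hx => by
    refine (subP_le_coord hG hx).trans ((sum_le_sum fun i _ => mul_le_mul_of_nonneg_left
      ((le_abs_self _).trans (hA i)) (hx i)).trans (le_of_eq ?_))
    rw [Fin.sum_univ_three]; ring
  refine ⟨|G fun _ => 1| + 3 * A, fun x hx => ?_⟩
  set a := x 0 + x 1 + x 2
  have h0 := hx 0; have h1 := hx 1; have h2 := hx 2
  have ha : 0 ≤ a := by linarith
  have hA0 : 0 ≤ A := le_trans (abs_nonneg (u 0)) (hA 0)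
  have hy : NN fun i => a - x i := fun i => by fin_cases i <;> simp [a] <;> linarith
  have e : x + (fun i => a - x i) = a • fun _ => (1 : ℝ) := by funext i; simp
  have hlo := hG.add _ _ hx hy
  rw [e, hG.smul a ha _ fun _ => zero_le_one] at hlo
  have hy' := up _ hy
  have hab := mul_le_mul_of_nonneg_left (neg_abs_le (G fun _ => 1)) ha
  have hab' := mul_nonneg ha (abs_nonneg (G fun _ => 1))
  have hAa := mul_nonneg hA0 ha
  refine abs_le.2 ⟨?_, (up x hx).trans ?_⟩
  · nlinarith
  · nlinarith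

lemma ens_sum (e : Ens 3) : e.S (fun x => x 0 + x 1 + x 2) = 3 := by
  simp only [Ens.S, sum_add_distrib, e.sum_one]
  norm_num

lemma ens_mean (e : Ens 3) : e.S mean = 1 := by
  simp only [Ens.S, mean, ← sum_div, Fin.sum_univ_three, sum_add_distrib, e.sum_one]
  norm_num

lemma ens_bound {C : ℝ} (hC : ∀ x, NN x → |G x| ≤ C * (x 0 + x 1 + x 2)) (e : Ens 3) :
    |e.S G| ≤ C * 3 := by
  rw [← ens_sum e, Ens.S, Ens.S, mul_sum]
  exact (abs_sum_le_sum_abs _ _).trans (sum_le_sum fun x _ => hC _ (e.nonneg x))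

/-- No observation is the least informative one. -/
lemma one_le_S (hG : SubP G) (e : Ens 3) : G (fun _ => 1) ≤ e.S G := by
  refine le_of_eq_of_le (congrArg G ?_) (subP_sum hG univ e.L fun x _ => e.nonneg x)
  funext i
  simp [Finset.sum_apply, e.sum_one]

/-- The spin itself is the most informative observation. -/
lemma le_leaf (hG : SubP G) (e : Ens 3) : e.S G ≤ (Ens.leaf 3).S G := by
  refine (sum_le_sum fun x _ => subP_le_coord hG (e.nonneg x)).trans (le_of_eq ?_)
  rw [Finset.sum_comm]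
  refine sum_congr rfl fun i _ => ?_
  rw [← sum_mul, e.sum_one, one_mul]
  rfl

lemma subP_slot (hG : SubP G) (e : Ens 3) : SubP (slot e G) := by
  refine ⟨fun x y hx hy => ?_, fun c hc x hx => ?_⟩
  · simp only [slot, Ens.S, ← sum_add_distrib]
    exact sum_le_sum fun z _ => (hG.comp_mul (u := e.L z) (e.nonneg z)).add x y hx hy
  · simp only [slot, Ens.S, mul_sum]
    exact sum_congr rfl fun z _ => (hG.comp_mul (u := e.L z) (e.nonneg z)).smul c hc x hx

lemma chanV_nn {lam : ℝ} (h : -1 ≤ lam * (((3 : ℕ) : ℝ) - 1)) (h' : lam ≤ 1) {x : Fin 3 → ℝ}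
    (hx : NN x) : NN (chanV lam x) := fun i => by
  rw [← potts_sum]
  exact sum_nonneg fun j _ => mul_nonneg (potts_nonneg h h' (by norm_num) i j) (hx j)

lemma subP_chan (hG : SubP G) {lam : ℝ} (h : -1 ≤ lam * (((3 : ℕ) : ℝ) - 1)) (h' : lam ≤ 1) :
    SubP fun w => G (chanV lam w) := by
  refine ⟨fun x y hx hy => ?_, fun c hc x hx => ?_⟩
  · refine le_of_eq_of_le (congrArg G ?_) (hG.add _ _ (chanV_nn h h' hx) (chanV_nn h h' hy))
    funext i; simp [chanV, mean, sum_add_distrib, add_div]; ring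
  · rw [← hG.smul c hc _ (chanV_nn h h' hx)]
    refine congrArg G (funext fun i => ?_)
    simp [chanV, mean, ← mul_sum]
    ring

section ev

variable {α β : Type*} {W : α → ℝ} {V : β → ℝ} {f g : α → ℝ} {B : ℝ}

lemma ev_summable (hW : Prob1 W) (hf : ∀ x, |f x| ≤ B) : Summable fun x => W x * f x := by
  refine Summable.of_norm_bounded (hW.sum.summable.mul_right B) fun x => ?_
  rw [Real.norm_eq_abs, abs_mul, abs_of_nonneg (hW.nonneg x)]
  exact mul_le_mul_of_nonneg_left (hf x) (hW.nonneg x)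

lemma ev_abs_le (hW : Prob1 W) (hf : ∀ x, |f x| ≤ B) : |ev W f| ≤ B := by
  have h := hW.sum.mul_right B
  rw [one_mul] at h
  refine abs_le.2 ⟨?_, ?_⟩
  · refine hasSum_le (fun x => ?_) h.neg (ev_summable hW hf).hasSum
    rw [← mul_neg]
    exact mul_le_mul_of_nonneg_left (abs_le.1 (hf x)).1 (hW.nonneg x)
  · exact hasSum_le (fun x => mul_le_mul_of_nonneg_left (abs_le.1 (hf x)).2 (hW.nonneg x))
      (ev_summable hW hf).hasSum h

lemma ev_le_ev (hW : Prob1 W) (hf : ∀ x, |f x| ≤ B) {B' : ℝ} (hg : ∀ x, |g x| ≤ B')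
    (h : ∀ x, f x ≤ g x) : ev W f ≤ ev W g :=
  (ev_summable hW hf).tsum_le_tsum (fun x => mul_le_mul_of_nonneg_left (h x) (hW.nonneg x))
    (ev_summable hW hg)

lemma ev_add (hW : Prob1 W) (hf : ∀ x, |f x| ≤ B) {B' : ℝ} (hg : ∀ x, |g x| ≤ B') :
    ev W (fun x => f x + g x) = ev W f + ev W g := by
  simp only [ev, mul_add]
  exact (ev_summable hW hf).tsum_add (ev_summable hW hg)

lemma ev_mul_left (c : ℝ) : ev W (fun x => c * f x) = c * ev W f := by
  simp only [ev, ← tsum_mul_left]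
  exact tsum_congr fun x => by ring

lemma ev_sum {ι : Type*} (hW : Prob1 W) (s : Finset ι) {F : ι → α → ℝ} {C : ι → ℝ}
    (hF : ∀ i x, |F i x| ≤ C i) :
    ev W (fun x => ∑ i ∈ s, F i x) = ∑ i ∈ s, ev W (F i) := by
  simp only [ev, mul_sum]
  exact Summable.tsum_finsetSum fun i _ => ev_summable hW (hF i)

lemma ev_add_const (hW : Prob1 W) (hf : ∀ x, |f x| ≤ B) (c : ℝ) :
    ev W (fun x => f x + c) = ev W f + c := by
  rw [ev_add hW hf (g := fun _ => c) (B' := |c|) (fun _ => le_rfl), ev_const hW]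

lemma ev_swap (hW : Prob1 W) (hV : Prob1 V) {F : α → β → ℝ} (hF : ∀ x y, |F x y| ≤ B) :
    ev W (fun x => ev V (F x)) = ev V fun y => ev W fun x => F x y := by
  have h := ev_comm hW hV (f := fun x y => F x y + B) (B := B + B)
    (fun x y => by linarith [(abs_le.1 (hF x y)).1]) fun x y => by linarith [(abs_le.1 (hF x y)).2]
  rw [funext fun x => ev_add_const hV (hF x) B,
    funext fun y => ev_add_const hW (fun x => hF x y) B,
    ev_add_const hW (fun x => ev_abs_le hV (hF x)) B,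
    ev_add_const hV (fun y => ev_abs_le hW fun x => hF x y) B] at h
  linarith

end ev

end Vale.Agent.P154.NegTrans
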