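import Vale.Agent.P154.NegTrans.Comp
import Vale.Agent.P154.D4.Table

/-!
The checks of the tables.
-/

namespace Vale.Agent.P154.NegTrans

open D4

/-- The image under `λ = -ln / lq` of the integer vector `(x, y, z)`, times `3 * lq`. -/
def chI (ln lq x y z : ℕ) (i : Fin 3) : ℕ :=
  (lq + ln) * (x + y + z) - 3 * ln * (if i = 0 then x else if i = 1 then y else z)

/-- A point of the sector, ascending, times `p ^ C`. -/
def Cfg.secV (c : Cfg) (A B : ℕ) : Fin 3 → ℕ :=
  chI c.ln c.lq (c.src.p ^ c.C) (c.src.p ^ B * c.src.q ^ (c.C - B))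
    (c.src.p ^ A * c.src.q ^ (c.C - A))

/-- A point of the face, ascending, times `(p q) ^ C`. -/
def Cfg.facV (c : Cfg) (s : ℕ) : Fin 3 → ℕ :=
  let U := c.src.p ^ c.C * c.src.q ^ c.C
  let Y := c.src.p ^ s * c.src.q ^ (2 * c.C - s)
  chI c.ln c.lq 0 (min U Y) (max U Y)

/-- Certainty. -/
def Cfg.unitV (c : Cfg) : Fin 3 → ℕ := chI c.ln c.lq 0 0 1

/-- A list of entries is certified. -/
def okList (dst : D4.Lat) (den : ℕ) (V : ℕ → Fin 3 → ℕ) : ℕ → List ℕ → Bool
  | _, [] => true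
  | i, x :: xs => dst.entryOk den (V i) (Entry.ofNat x) && okList dst den V (i + 1) xs

/-- The rows are certified. -/
def Cfg.okRows (c : Cfg) (dst : D4.Lat) : ℕ → List (List ℕ) → Bool
  | _, [] => true
  | A, r :: rs => decide (r.length + A = c.C + 1) &&
      okList dst (3 * c.lq * c.src.p ^ c.C) (c.secV A) A r && c.okRows dst (A + 1) rs

/-- A step is certified. -/
def Cfg.ok (c : Cfg) (dst : D4.Lat) : Bool :=
  c.src.good && dst.good && decide (c.src.p < c.src.q ∧ bitsW ≤ c.K ∧ 0 < c.lq ∧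
    2 * c.ln ≤ c.lq ∧ c.n = dst.reps.length ∧ c.tab.length = c.C + 1 ∧
    c.tab1.length = 2 * c.C + 1) && c.okRows dst 0 c.tab &&
    okList dst (3 * c.lq * (c.src.p ^ c.C * c.src.q ^ c.C)) c.facV 0 c.tab1 &&
    dst.entryOk (3 * c.lq) c.unitV (Entry.ofNat c.tab0)

end Vale.Agent.P154.NegTrans
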