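import Vale.Agent.P154.D4.Comp

/-!
The computation for Poisson trees near `λ = -1/2`: edge laws are bounded above, in the order of
information, on a lattice. The generating function is truncated and evaluated by Horner's rule on
packed slots; the slots are rounded down and clipped to a window after each product, which only
moves mass to certainty.
-/

namespace Vale.Agent.P154.NegTrans

open D4

/-- Bits of the weights of atoms and of slots. -/
def bitsW : ℕ := 64

/-- `n` copies of `v`, spaced by `K` bits. -/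
def rep (K v : ℕ) : ℕ → ℕ
  | 0 => 0
  | n + 1 => (rep K v n <<< K) + v

/-- Data of a step: source lattice, window, number of targets, slot widths, the channel
`λ = -ln / lq`, lower bounds of the offspring probabilities, and tables. -/
structure Cfg where
  src : Lat
  C : ℕ
  n : ℕ
  K : ℕ
  K' : ℕ
  ln : ℕ
  lq : ℕ
  pw : List ℕ
  tab : List (List ℕ)
  tab1 : List ℕ
  tab0 : ℕ

/-- Width of a row of slots. -/
def Cfg.w (c : Cfg) : ℕ := 2 * (c.C + c.src.L) + 1

/-- Slot and weight, rounded down, of an atom in the chart where the last coordinate is `1`. -/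
def Cfg.atom2 (c : Cfg) (W : ℕ) (e : ℕ × ℕ × ℕ) : ℕ × ℕ :=
  ((e.1 + c.src.L - e.2.2) * c.w + (e.2.1 + c.src.L - e.2.2),
    W * c.src.p ^ e.2.2 / c.src.q ^ e.2.2)

/-- The same on the face where the last coordinate vanishes. -/
def Cfg.atom1 (c : Cfg) (W : ℕ) (e : ℕ × ℕ × ℕ) : ℕ × ℕ :=
  (e.1 + c.src.L - e.2.1, W * c.src.p ^ e.2.1 / c.src.q ^ e.2.1)

/-- All atoms. -/
def Cfg.atoms (c : Cfg) (f : Cfg → ℕ → ℕ × ℕ × ℕ → ℕ × ℕ) (W : List ℕ) : List (ℕ × ℕ) :=
  (W.zip c.src.reps).flatMap fun we => (six we.2).map (f c we.1)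

/-- The mask of the window in the sector chart. -/
def Cfg.mask2 (c : Cfg) : ℕ :=
  rep (c.K * c.w) (rep c.K (2 ^ (c.K - bitsW) - 1) (2 * c.C + 1)) (2 * c.C + 1)

/-- The mask of the window on the face. -/
def Cfg.mask1 (c : Cfg) : ℕ := rep c.K (2 ^ (c.K - bitsW) - 1) (2 * c.C + 1)

/-- Horner's rule: the packed slots, a bound on their total, and the overflow test. -/
def horner (K shift mask ctr F mF : ℕ) : List ℕ → ℕ × ℕ × Bool
  | [] => (0, 0, true)
  | P :: ps =>
    let r := horner K shift mask ctr F mF ps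
    (((r.1 * F) >>> shift) &&& mask) + (P <<< (K * ctr)) |> fun N =>
      (N, (r.2.1 * mF) / 2 ^ bitsW + P,
        r.2.2 && decide (r.2.1 * mF < 2 ^ K) && decide ((r.2.1 * mF) / 2 ^ bitsW + P < 2 ^ K))

/-- The same on the face, with the difference of the two generating functions. -/
def hornerFace (K shift mask ctr F mF L E : ℕ) : List ℕ → (ℕ × ℕ) × (ℕ × ℕ) × Bool
  | [] => ((0, 0), (0, 0), true)
  | P :: ps =>
    let r := hornerFace K shift mask ctr F mF L E ps
    let a := r.1.2 * mF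
    let a' := a / 2 ^ bitsW + P
    let b := r.2.1.2 * (mF + E) + r.1.2 * E
    ((((r.1.1 * F) >>> shift) &&& mask) + (P <<< (K * ctr)), a') |> fun x =>
      (x, ((((r.2.1.1 * (F + (E <<< (K * L)))) + ((r.1.1 * E) <<< (K * L))) >>> shift) &&& mask,
          b / 2 ^ bitsW),
        r.2.2 && decide (a < 2 ^ K) && decide (a' < 2 ^ K) && decide (b < 2 ^ K))

/-- Upper bound, in units of `2 ^ (-bitsW)`, of `t ^ (-n)`. -/
def Cfg.up (c : Cfg) (n : ℕ) : ℕ := 2 ^ bitsW * c.src.q ^ n / c.src.p ^ n + 1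

/-- Upper bound of the mass of a row of the sector, from `B` on. -/
def Cfg.rowCol (c : Cfg) (A row : ℕ) : ℕ → ℕ → ℕ
  | _, 0 => 0
  | B, n + 1 => c.rowCol A row (B + 1) n +
    mult c.C A B * ((row >>> (c.K * B)) &&& (2 ^ c.K - 1)) *
      (c.up (c.C - A) + c.up (c.C - B) + 2 ^ bitsW)

/-- Upper bound of the mass of the sector, from row `A` on. -/
def Cfg.allCol (c : Cfg) (N : ℕ) : ℕ → ℕ → ℕ
  | _, 0 => 0
  | A, n + 1 => c.allCol N (A + 1) n +
    c.rowCol A ((N >>> (c.K * (A * c.w))) &&& (2 ^ (c.K * c.w) - 1)) A (c.C + 1 - A)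

/-- Upper bound of the mass of the face, from slot `s` on. -/
def Cfg.faceCol (c : Cfg) (D : ℕ) : ℕ → ℕ → ℕ
  | _, 0 => 0
  | s, n + 1 => c.faceCol D (s + 1) n +
    3 * ((D >>> (c.K * s)) &&& (2 ^ c.K - 1)) *
      ((if s ≤ c.C then c.up (c.C - s)
        else 2 ^ bitsW * c.src.p ^ (s - c.C) / c.src.q ^ (s - c.C) + 1) + 2 ^ bitsW)

/-- One generation, with the tests. -/
def Cfg.step (c : Cfg) (s : State) : State × Bool :=
  let F2 := c.atoms Cfg.atom2 s.W
  let F1 := c.atoms Cfg.atom1 s.W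
  let r2 := horner c.K (c.K * (c.src.L * c.w + c.src.L) + bitsW) c.mask2 (c.C * c.w + c.C)
    (packT c.K 7 ((c.src.L) * c.w) F2) (mass F2) c.pw
  let r1 := hornerFace c.K (c.K * c.src.L + bitsW) c.mask1 c.C
    (pack c.K F1) (mass F1) c.src.L s.E c.pw
  let col := c.allCol r2.1 0 (c.C + 1) + c.faceCol r1.2.1.1 0 (2 * c.C + 1)
  let u := allRows c.K c.K' c.n c.C c.w r2.1 0 c.tab
  let v := faceSum c.K c.K' c.n r1.2.1.1 0 c.tab1
  let z := (Entry.ofNat c.tab0).pack c.K' c.n ((3 * 2 ^ (2 * bitsW) - col) / 2 ^ bitsW)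
  let acc := u.1 + v.1 + z.1
  ({ W := unpackAcc c.K' (6 * 2 ^ bitsT) acc c.n
     E := (acc >>> (c.K' * c.n)) / (3 * 2 ^ bitsT) },
    r2.2.2 && r1.2.2 && decide (u.2 + v.2 + z.2 < 2 ^ c.K') && c.src.valid s &&
      decide (col ≤ 3 * 2 ^ (2 * bitsW)))

/-- Iterated steps, with the tests. -/
def Cfg.run (c : Cfg) : ℕ → State → State × Bool
  | 0, s => (s, true)
  | m + 1, s =>
    let r := c.step s
    let r' := c.run m r.1
    (r'.1, r.2 && c.src.valid r.1 && r'.2)

end Vale.Agent.P154.NegTrans
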