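import Vale.Agent.P154.NegTrans.Horner

/-!
Horner's rule on the face: the products containing the exclusion point `(e, e, 0)`.
-/

namespace Vale.Agent.P154.NegTrans

open Finset D4

/-- The projection to the face where the last coordinate vanishes. -/
noncomputable def proj (x : Fin 3 → ℝ) : Fin 3 → ℝ := ![x 0, x 1, 0]

lemma proj_nn {x : Fin 3 → ℝ} (hx : NN x) : NN (proj x) := fun i => by
  fin_cases i <;> simp [proj, hx 0, hx 1]

lemma proj_mul (a x : Fin 3 → ℝ) :
    proj (fun i => a i * x i) = fun i => proj a i * proj x i := by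
  funext i; fin_cases i <;> simp [proj]

lemma Neg.comp_proj {H : (Fin 3 → ℝ) → ℝ} (hH : Neg H) : Neg fun x => H (proj x) := by
  refine ⟨fun x hx => hH.nonpos _ (proj_nn hx), fun c hc x hx => ?_⟩
  rw [← hH.smul c hc _ (proj_nn hx)]
  exact congrArg H (funext fun i => by fin_cases i <;> simp [proj])

/-- The terms with at least one further factor `e₀`. -/
noncomputable def dif (ws : List (Fin 3 → ℝ)) (e₀ : Fin 3 → ℝ) :
    List ℕ → ((Fin 3 → ℝ) → ℝ) → ℝ
  | [], _ => 0
  | _ :: ps, H => (lsum ws fun a => dif ws e₀ ps fun x => H fun i => a i * x i) +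
      ((horR ws ps fun x => H fun i => e₀ i * x i) + dif ws e₀ ps fun x => H fun i => e₀ i * x i)

lemma horR_snoc (ws : List (Fin 3 → ℝ)) (e₀ : Fin 3 → ℝ) :
    ∀ (ps : List ℕ) (H : (Fin 3 → ℝ) → ℝ),
      horR (ws ++ [e₀]) ps H = horR ws ps H + dif ws e₀ ps H
  | [], _ => (add_zero (0 : ℝ)).symm
  | P :: ps, H => by
    simp only [horR, dif, lsum_append, lsum_cons, lsum_nil, add_zero, horR_snoc ws e₀ ps, lsum_add]
    ring

lemma dif_congr {ws : List (Fin 3 → ℝ)} {e₀ : Fin 3 → ℝ} (hws : ∀ a ∈ ws, NN a) (he : NN e₀)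
    (he2 : e₀ 2 = 0) : ∀ (ps : List ℕ) {H H' : (Fin 3 → ℝ) → ℝ},
    (∀ x, NN x → x 2 = 0 → H x = H' x) → dif ws e₀ ps H = dif ws e₀ ps H'
  | [], _, _, _ => rfl
  | _ :: ps, _, _, h => by
    have h2 : ∀ x, NN x → NN (fun i => e₀ i * x i) ∧ e₀ 2 * x 2 = 0 :=
      fun x hx => ⟨NN.mul' he hx, by rw [he2, zero_mul]⟩
    simp only [dif]
    refine congrArg₂ (· + ·) (lsum_congr fun a ha => dif_congr hws he he2 ps fun x hx hx2 =>
      h _ (NN.mul' (hws a ha) hx) (by simp [hx2])) (congrArg₂ (· + ·) ?_ ?_)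
    · exact horR_congr hws ps fun x hx => h _ (h2 x hx).1 (h2 x hx).2
    · exact dif_congr hws he he2 ps fun x hx _ => h _ (h2 x hx).1 (h2 x hx).2

variable {c : Cfg}

lemma pt1_proj (o u : ℕ) : proj (c.pt1 o u) = c.pt1 o u := by
  funext i; fin_cases i <;> simp [proj, Cfg.pt1]

lemma slot1_eq (hc : c.src.good = true) {e : ℕ × ℕ × ℕ}
    (he : e.1 ≤ c.src.L ∧ e.2.1 ≤ c.src.L ∧ e.2.2 ≤ c.src.L) (W s : ℕ) :
    (fun i => proj (c.src.vec e) i * c.pt1 c.C s i) =
      c.src.t ^ e.2.1 • c.pt1 (c.C + c.src.L) (s + (c.atom1 W e).1) := by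
  have ht := (t_pos hc).ne'
  funext i
  fin_cases i <;> simp [proj, D4.Lat.vec, expo, Cfg.pt1, Cfg.atom1]
  rw [← zpow_natCast, ← zpow_natCast _ e.2.1, ← zpow_add₀ ht, ← zpow_add₀ ht]
  congr 1; omega

lemma slot1_back (s : ℕ) : c.pt1 (c.C + c.src.L) (s + c.src.L) = c.pt1 c.C s := by
  simp [Cfg.pt1]

lemma pack_cons' (K u w : ℕ) (l : List (ℕ × ℕ)) :
    pack K ((u, w) :: l) = w * 2 ^ (K * u) + pack K l := by
  simp [pack, Nat.shiftLeft_eq]

lemma pack_single (K u w : ℕ) : pack K [(u, w)] = w * 2 ^ (K * u) := by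
  simp [pack, Nat.shiftLeft_eq]

lemma mass_single (u w : ℕ) : mass [(u, w)] = w := by simp [mass]

/-- Horner's rule on the face. -/
theorem hornerFace_sound (hc : c.src.good = true) (hK : bitsW ≤ c.K) (W : List ℕ) (E : ℕ) :
    ∀ (ps : List ℕ),
      (hornerFace c.K (c.K * c.src.L + bitsW) c.mask1 c.C (pack c.K (c.atoms Cfg.atom1 W))
        (mass (c.atoms Cfg.atom1 W)) c.src.L E ps).2.2 = true →
      ∃ l1 l2 : List (ℕ × ℕ),
        (hornerFace c.K (c.K * c.src.L + bitsW) c.mask1 c.C (pack c.K (c.atoms Cfg.atom1 W))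
          (mass (c.atoms Cfg.atom1 W)) c.src.L E ps).1.1 = pack c.K l1 ∧
        (hornerFace c.K (c.K * c.src.L + bitsW) c.mask1 c.C (pack c.K (c.atoms Cfg.atom1 W))
          (mass (c.atoms Cfg.atom1 W)) c.src.L E ps).2.1.1 = pack c.K l2 ∧
        mass l1 ≤ (hornerFace c.K (c.K * c.src.L + bitsW) c.mask1 c.C
          (pack c.K (c.atoms Cfg.atom1 W)) (mass (c.atoms Cfg.atom1 W)) c.src.L E ps).1.2 ∧
        mass l2 ≤ (hornerFace c.K (c.K * c.src.L + bitsW) c.mask1 c.C
          (pack c.K (c.atoms Cfg.atom1 W)) (mass (c.atoms Cfg.atom1 W)) c.src.L E ps).2.1.2 ∧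
        mass l2 < 2 ^ c.K ∧ (∀ a ∈ l2, a.1 < 2 * c.C + 1) ∧
        ∀ H, Neg H →
          (horR (fvecs c.src W) ps (fun x => H (proj x)) ≤
            lsum l1 fun a => (a.2 : ℝ) / unitP * H (c.pt1 c.C a.1)) ∧
          dif (fvecs c.src W) ![(E : ℝ) / unitP, (E : ℝ) / unitP, 0] ps (fun x => H (proj x)) ≤
            lsum l2 fun a => (a.2 : ℝ) / unitP * H (c.pt1 c.C a.1) := by
  intro ps
  induction ps with
  | nil =>
    intro _
    exact ⟨[], [], rfl, rfl, le_rfl, le_rfl, Nat.two_pow_pos _, by simp,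
      fun H _ => ⟨le_rfl, le_rfl⟩⟩
  | cons P ps ih =>
    intro h
    simp only [hornerFace, Bool.and_eq_true, decide_eq_true_eq] at h ⊢
    obtain ⟨⟨⟨h0, ha⟩, ha'⟩, hb⟩ := h
    obtain ⟨l1, l2, hN1, hN2, hM1, hM2, -, hwin, hbd⟩ := ih h0
    set F := c.atoms Cfg.atom1 W with hF
    set r := hornerFace c.K (c.K * c.src.L + bitsW) c.mask1 c.C (pack c.K F) (mass F) c.src.L E ps
    have hK0 : 0 < c.K := lt_of_lt_of_le (by decide) hK
    set S := List.range (2 * c.C + 1) with hSdef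
    have hS : S.Nodup := List.nodup_range
    have hu := unitP_pos
    set q1 := lmul l1 F with hq1
    set q2 := lmul l2 ((c.src.L, E) :: F) ++ lmul l1 [(c.src.L, E)] with hq2
    have hm1 : mass q1 ≤ r.1.2 * mass F := by
      rw [hq1, mass_lmul]; exact Nat.mul_le_mul_right _ hM1
    have hm2 : mass q2 ≤ r.2.1.2 * (mass F + E) + r.1.2 * E := by
      rw [hq2, mass_append, mass_lmul, mass_lmul, mass_single, mass]
      rw [add_comm E]
      exact add_le_add (Nat.mul_le_mul_right _ hM2) (Nat.mul_le_mul_right _ hM1)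
    have hp1 : mass q1 < 2 ^ c.K := hm1.trans_lt ha
    have hp2 : mass q2 < 2 ^ c.K := hm2.trans_lt hb
    have hk2 : mass (kept bitsW c.src.L q2 S) ≤
        (r.2.1.2 * (mass F + E) + r.1.2 * E) / 2 ^ bitsW :=
      (mass_kept _ _ _ hS).trans (Nat.div_le_div_right hm2)
    refine ⟨kept bitsW c.src.L q1 S ++ [(c.C, P)], kept bitsW c.src.L q2 S, ?_, ?_, ?_, hk2,
      hk2.trans_lt ((Nat.div_le_self _ _).trans_lt hb), ?_, ?_⟩
    · rw [hN1, ← pack_lmul, ← hq1, shift_mask_pack hK0 hK hp1 hS digit_mask1, pack_append,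
        pack_single, Nat.shiftLeft_eq]
    · rw [← shift_mask_pack hK0 hK hp2 hS digit_mask1, hN1, hN2, hq2, pack_append, pack_lmul,
        pack_lmul, pack_single, pack_cons', Nat.shiftLeft_eq, Nat.shiftLeft_eq]
      congr 2
      ring
    · rw [mass_append, mass_single]
      exact add_le_add ((mass_kept _ _ _ hS).trans (Nat.div_le_div_right hm1)) le_rfl
    · intro a ha
      obtain ⟨s, hs, rfl⟩ := List.mem_map.1 ha
      exact List.mem_range.1 hs
    intro H hH
    set e₀ : Fin 3 → ℝ := ![(E : ℝ) / unitP, (E : ℝ) / unitP, 0] with he0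
    have he0n : NN e₀ := fun i => by fin_cases i <;> simp [e₀] <;> positivity
    -- one more factor from the list of atoms
    have key : ∀ (l : List (ℕ × ℕ)) (T : ((Fin 3 → ℝ) → ℝ) → ℝ),
        (∀ G, Neg G → T (fun x => G (proj x)) ≤
          lsum l fun a => (a.2 : ℝ) / unitP * G (c.pt1 c.C a.1)) →
        lsum (fvecs c.src W) (fun a => T fun x => H (proj fun i => a i * x i)) ≤
          lsum (lmul l F) fun z =>
            (z.2 : ℝ) / unitP / unitP * H (c.pt1 (c.C + c.src.L) z.1) := by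
      intro l T hT
      rw [lsum_lmul, lsum_comm l, hF, atoms_base, lsum_map, fvecs, lsum_map]
      refine lsum_le fun a ha => ?_
      have hvn := vec_nn hc a.2
      have han : NN (fV c.src a) := fun i =>
        mul_nonneg (div_nonneg (Nat.cast_nonneg _) hu.le) (hvn i)
      have e1 : (fun x => H (proj fun i => fV c.src a i * x i)) =
          fun x => (fun y => H fun i => proj (fV c.src a) i * y i) (proj x) :=
        funext fun x => congrArg H (proj_mul _ _)
      rw [e1]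
      refine (hT _ (hH.comp_mul (proj_nn han))).trans (lsum_le fun z _ => ?_)
      have e : (fun i => proj (fV c.src a) i * c.pt1 c.C z.1 i) =
          ((a.1 : ℝ) / unitP * c.src.t ^ a.2.2.1) •
            c.pt1 (c.C + c.src.L) (z.1 + (c.atom1 a.1 a.2).1) := by
        rw [mul_smul, ← slot1_eq hc (base_mem hc ha) a.1 z.1]
        funext i
        fin_cases i <;> simp [fV, proj, mul_assoc]
      have ht := pow_nonneg (t_pos hc).le a.2.2.1
      show (z.2 : ℝ) / unitP * H (fun i => proj (fV c.src a) i * c.pt1 c.C z.1 i) ≤ _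
      rw [e, hH.smul _ (mul_nonneg (div_nonneg (Nat.cast_nonneg _) hu.le) ht) _ (pt1_nn hc _ _),
        Nat.cast_mul]
      have hfl := cast_floor_le hc a.1 a.2.2.1
      have hH0 := hH.nonpos _ (pt1_nn hc (c.C + c.src.L) (z.1 + (c.atom1 a.1 a.2).1))
      rw [← mul_assoc]
      refine mul_le_mul_of_nonpos_right ?_ hH0
      show (z.2 : ℝ) * ((a.1 * c.src.p ^ a.2.2.1 / c.src.q ^ a.2.2.1 : ℕ) : ℝ) / unitP / unitP ≤ _
      rw [mul_comm (a.1 : ℝ) (c.src.t ^ _)] at hfl
      calc (z.2 : ℝ) * ((a.1 * c.src.p ^ a.2.2.1 / c.src.q ^ a.2.2.1 : ℕ) : ℝ) / unitP / unitP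
          ≤ (z.2 : ℝ) * (c.src.t ^ a.2.2.1 * a.1) / unitP / unitP := by gcongr
        _ = _ := by ring
    -- one more exclusion point
    have keyE : ∀ (l : List (ℕ × ℕ)) (T : ((Fin 3 → ℝ) → ℝ) → ℝ),
        (∀ G, Neg G → T (fun x => G (proj x)) ≤
          lsum l fun a => (a.2 : ℝ) / unitP * G (c.pt1 c.C a.1)) →
        T (fun x => H (proj fun i => e₀ i * x i)) ≤
          lsum (lmul l [(c.src.L, E)]) fun z =>
            (z.2 : ℝ) / unitP / unitP * H (c.pt1 (c.C + c.src.L) z.1) := by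
      intro l T hT
      have e1 : (fun x => H (proj fun i => e₀ i * x i)) =
          fun x => (fun y => H fun i => proj e₀ i * y i) (proj x) :=
        funext fun x => congrArg H (proj_mul _ _)
      rw [e1, lsum_lmul]
      simp only [lsum_cons, lsum_nil, add_zero]
      refine (hT _ (hH.comp_mul (proj_nn he0n))).trans (le_of_eq (lsum_congr fun z _ => ?_))
      have e : (fun i => proj e₀ i * c.pt1 c.C z.1 i) =
          ((E : ℝ) / unitP) • c.pt1 (c.C + c.src.L) (z.1 + c.src.L) := by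
        rw [slot1_back]
        funext i
        fin_cases i <;> simp [proj, e₀, Cfg.pt1]
      show (z.2 : ℝ) / unitP * H (fun i => proj e₀ i * c.pt1 c.C z.1 i) = _
      rw [e, hH.smul _ (div_nonneg (Nat.cast_nonneg _) hu.le) _ (pt1_nn hc _ _)]
      push_cast
      ring
    have fin : ∀ (l : List (ℕ × ℕ)),
        lsum l (fun z => (z.2 : ℝ) / unitP / unitP * H (c.pt1 (c.C + c.src.L) z.1)) ≤
          lsum (kept bitsW c.src.L l S) fun a => (a.2 : ℝ) / unitP * H (c.pt1 c.C a.1) := by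
      intro l
      have h := kept_bound (fun u => hH.nonpos _ (pt1_nn hc (c.C + c.src.L) u)) l c.src.L hS
      simpa only [slot1_back] using h
    have hone : proj (fun _ => (1 : ℝ)) = c.pt1 c.C c.C := by
      funext i; fin_cases i <;> simp [proj, Cfg.pt1]
    have k1 := key l1 (horR (fvecs c.src W) ps) fun G hG => (hbd G hG).1
    have k2 := key l2 (dif (fvecs c.src W) e₀ ps) fun G hG => (hbd G hG).2
    have k3 := keyE l1 (horR (fvecs c.src W) ps) fun G hG => (hbd G hG).1
    have k4 := keyE l2 (dif (fvecs c.src W) e₀ ps) fun G hG => (hbd G hG).2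
    constructor
    · simp only [horR, lsum_append, lsum_cons, lsum_nil, add_zero, hone]
      rw [add_comm (((P : ℕ) : ℝ) / unitP * _)]
      exact add_le_add (k1.trans (fin _)) le_rfl
    · simp only [dif]
      refine le_trans ?_ (fin q2)
      have e : lsum (lmul l2 ((c.src.L, E) :: F)) (fun z =>
          (z.2 : ℝ) / unitP / unitP * H (c.pt1 (c.C + c.src.L) z.1)) =
          lsum (lmul l2 [(c.src.L, E)]) (fun z =>
            (z.2 : ℝ) / unitP / unitP * H (c.pt1 (c.C + c.src.L) z.1)) +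
          lsum (lmul l2 F) fun z =>
            (z.2 : ℝ) / unitP / unitP * H (c.pt1 (c.C + c.src.L) z.1) := by
        simp only [lsum_lmul, lsum_cons, lsum_nil, add_zero, lsum_add]
      rw [hq2, lsum_append, e]
      linarith

end Vale.Agent.P154.NegTrans
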