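import Vale.Agent.P154.NegTrans.Kron
import Vale.Agent.P154.D4.Step

/-!
The truncated generating function of a family on test functions, and its bound by Horner's rule on
slots.
-/

namespace Vale.Agent.P154.NegTrans

open Finset D4

/-- Nonpositive, positively homogeneous functions on the orthant. -/
structure Neg (H : (Fin 3 → ℝ) → ℝ) : Prop where
  nonpos : ∀ x, NN x → H x ≤ 0
  smul : ∀ (c : ℝ), 0 ≤ c → ∀ x, NN x → H (c • x) = c * H x

lemma NN.mul' {a x : Fin 3 → ℝ} (ha : NN a) (hx : NN x) : NN (fun i => a i * x i) :=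
  fun i => mul_nonneg (ha i) (hx i)

lemma Neg.comp_mul {H : (Fin 3 → ℝ) → ℝ} (hH : Neg H) {a : Fin 3 → ℝ} (ha : NN a) :
    Neg fun x => H fun i => a i * x i := by
  refine ⟨fun x hx => hH.nonpos _ (NN.mul' ha hx), fun c hc x hx => ?_⟩
  rw [← hH.smul c hc _ (NN.mul' ha hx)]
  exact congrArg H (funext fun i => by simp; ring)

lemma Neg.const_mul {H : (Fin 3 → ℝ) → ℝ} (hH : Neg H) {k : ℝ} (hk : 0 ≤ k) :
    Neg fun x => k * H x :=
  ⟨fun x hx => mul_nonpos_of_nonneg_of_nonpos hk (hH.nonpos x hx),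
    fun c hc x hx => by rw [hH.smul c hc x hx]; ring⟩

/-- The truncated generating function of a family. -/
noncomputable def horR (ws : List (Fin 3 → ℝ)) : List ℕ → ((Fin 3 → ℝ) → ℝ) → ℝ
  | [], _ => 0
  | P :: ps, H => (P : ℝ) / unitP * H (fun _ => 1) +
      lsum ws fun a => horR ws ps fun x => H fun i => a i * x i

section horR

variable {ws : List (Fin 3 → ℝ)}

lemma nn_one : NN (fun _ : Fin 3 => (1 : ℝ)) := fun _ => zero_le_one

lemma horR_mono (hws : ∀ a ∈ ws, NN a) : ∀ (ps : List ℕ) {H H' : (Fin 3 → ℝ) → ℝ},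
    (∀ x, NN x → H x ≤ H' x) → horR ws ps H ≤ horR ws ps H'
  | [], _, _, _ => le_rfl
  | P :: ps, _, _, h => add_le_add (mul_le_mul_of_nonneg_left (h _ nn_one)
      (div_nonneg (Nat.cast_nonneg P) unitP_pos.le))
      (lsum_le fun a ha => horR_mono hws ps fun _ hx => h _ (NN.mul' (hws a ha) hx))

lemma horR_congr (hws : ∀ a ∈ ws, NN a) (ps : List ℕ) {H H' : (Fin 3 → ℝ) → ℝ}
    (h : ∀ x, NN x → H x = H' x) : horR ws ps H = horR ws ps H' :=
  le_antisymm (horR_mono hws ps fun x hx => (h x hx).le) (horR_mono hws ps fun x hx => (h x hx).ge)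

lemma horR_add : ∀ (ps : List ℕ) (H H' : (Fin 3 → ℝ) → ℝ),
    horR ws ps (fun x => H x + H' x) = horR ws ps H + horR ws ps H'
  | [], _, _ => (add_zero (0 : ℝ)).symm
  | P :: ps, H, H' => by
    simp only [horR, horR_add ps, lsum_add]
    ring

lemma horR_const_mul : ∀ (ps : List ℕ) (k : ℝ) (H : (Fin 3 → ℝ) → ℝ),
    horR ws ps (fun x => k * H x) = k * horR ws ps H
  | [], k, _ => (mul_zero k).symm
  | P :: ps, k, H => by
    simp only [horR, horR_const_mul ps, lsum_mul_left]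
    ring

lemma horR_zero (ps : List ℕ) : horR ws ps (fun _ => 0) = 0 := by
  simpa using horR_const_mul (ws := ws) ps 0 fun _ => 0

lemma horR_sum {ι : Type*} (s : Finset ι) (ps : List ℕ) (F : ι → (Fin 3 → ℝ) → ℝ) :
    horR ws ps (fun x => ∑ i ∈ s, F i x) = ∑ i ∈ s, horR ws ps (F i) := by
  classical
  induction s using Finset.induction with
  | empty => simpa using horR_zero ps
  | insert i s hi ih =>
    rw [sum_insert hi, ← ih, ← horR_add]
    exact congrArg _ (funext fun x => sum_insert hi)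

lemma horR_perm (hs : SymL ws) (σ : Equiv.Perm (Fin 3)) : ∀ (ps : List ℕ) (H : (Fin 3 → ℝ) → ℝ),
    horR ws ps (fun x => H fun i => x (σ i)) = horR ws ps H
  | [], _ => rfl
  | P :: ps, H => by
    have h : ∀ a : Fin 3 → ℝ, (horR ws ps fun x => H fun i => a (σ i) * x (σ i)) =
        horR ws ps fun x => H fun i => a (σ i) * x i :=
      fun a => horR_perm hs σ ps fun y => H fun i => a (σ i) * y i
    simp only [horR, h]
    congr 1
    exact hs σ fun b => horR ws ps fun x => H fun i => b i * x i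

lemma horR_nonpos (hws : ∀ a ∈ ws, NN a) (ps : List ℕ) {H : (Fin 3 → ℝ) → ℝ} (hH : Neg H) :
    horR ws ps H ≤ 0 :=
  (horR_mono hws ps fun x hx => hH.nonpos x hx).trans (horR_zero ps).le

lemma horR_append_le {ws' : List (Fin 3 → ℝ)} (hws : ∀ a ∈ ws ++ ws', NN a) :
    ∀ (ps : List ℕ) {H : (Fin 3 → ℝ) → ℝ}, Neg H → horR (ws ++ ws') ps H ≤ horR ws ps H
  | [], _, _ => le_rfl
  | P :: ps, H, hH => by
    simp only [horR, lsum_append]
    have h1 := lsum_le (f := fun a => horR (ws ++ ws') ps fun x => H fun i => a i * x i)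
      (g := fun a => horR ws ps fun x => H fun i => a i * x i) fun a ha =>
        horR_append_le hws ps (hH.comp_mul (hws a (List.mem_append_left _ ha)))
    have h2 := lsum_le (l := ws') (f := fun a => horR (ws ++ ws') ps fun x => H fun i => a i * x i)
      (g := fun _ => 0) fun a ha =>
        horR_nonpos hws ps (hH.comp_mul (hws a (List.mem_append_right _ ha)))
    rw [lsum_const, mul_zero] at h2
    linarith

end horR

/-- A point of the sector chart. -/
noncomputable def Cfg.pt2 (c : Cfg) (o u : ℕ) : Fin 3 → ℝ :=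
  ![c.src.t ^ (((u / c.w : ℕ) : ℤ) - o), c.src.t ^ (((u % c.w : ℕ) : ℤ) - o), 1]

/-- A point of the face chart. -/
noncomputable def Cfg.pt1 (c : Cfg) (o u : ℕ) : Fin 3 → ℝ := ![c.src.t ^ ((u : ℤ) - o), 1, 0]

/-- The window of the sector chart. -/
def Cfg.win2 (c : Cfg) : List ℕ :=
  (List.range ((2 * c.C + 1) * c.w)).filter fun s => decide (s % c.w < 2 * c.C + 1)

variable {c : Cfg}

lemma Cfg.w_pos : 0 < c.w := by simp [Cfg.w]

lemma mem_win2 {s : ℕ} : s ∈ c.win2 ↔ s / c.w < 2 * c.C + 1 ∧ s % c.w < 2 * c.C + 1 := by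
  simp [Cfg.win2, Nat.div_lt_iff_lt_mul c.w_pos]

lemma rep_lt {K v : ℕ} (hv : v < 2 ^ K) : ∀ n, rep K v n < 2 ^ (K * n)
  | 0 => by simp [rep]
  | n + 1 => by
    rw [rep, Nat.shiftLeft_eq, Nat.mul_succ, pow_add]
    have := Nat.mul_le_mul_right (2 ^ K) (Nat.succ_le_of_lt (rep_lt hv n))
    rw [Nat.succ_mul] at this
    omega

lemma digit_mask2 (s : ℕ) :
    digit c.K c.mask2 s = if s ∈ c.win2 then 2 ^ (c.K - bitsW) - 1 else 0 := by
  have hv : 2 ^ (c.K - bitsW) - 1 < 2 ^ c.K :=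
    lt_of_lt_of_le (Nat.sub_lt (Nat.two_pow_pos _) one_pos)
      (Nat.pow_le_pow_right two_pos (Nat.sub_le _ _))
  have hw : 2 * c.C + 1 ≤ c.w := by simp [Cfg.w]
  have hR : rep c.K (2 ^ (c.K - bitsW) - 1) (2 * c.C + 1) < 2 ^ (c.K * c.w) :=
    (rep_lt hv _).trans_le (Nat.pow_le_pow_right two_pos (Nat.mul_le_mul_left _ hw))
  simp only [mem_win2]
  conv_lhs => rw [← Nat.div_add_mod' s c.w]
  rw [digit_nest _ _ _ _ (Nat.mod_lt _ c.w_pos), Cfg.mask2, digit_rep hR]
  by_cases hA : s / c.w < 2 * c.C + 1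
  · rw [if_pos hA, digit_rep hv]
    simp [hA]
  · rw [if_neg hA, if_neg fun h => hA h.1]
    simp [digit]

lemma digit_mask1 (s : ℕ) :
    digit c.K c.mask1 s =
      if s ∈ List.range (2 * c.C + 1) then 2 ^ (c.K - bitsW) - 1 else 0 := by
  have hv : 2 ^ (c.K - bitsW) - 1 < 2 ^ c.K :=
    lt_of_lt_of_le (Nat.sub_lt (Nat.two_pow_pos _) one_pos)
      (Nat.pow_le_pow_right two_pos (Nat.sub_le _ _))
  simp only [Cfg.mask1, digit_rep hv, List.mem_range]

lemma atoms_base (f : Cfg → ℕ → ℕ × ℕ × ℕ → ℕ × ℕ) (W : List ℕ) :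
    c.atoms f W = (base c.src W).map fun a => f c a.1 a.2 := by
  simp [Cfg.atoms, base, List.map_flatMap, List.map_map, Function.comp_def]

lemma fV_smul (G : D4.Lat) (a : ℕ × (ℕ × ℕ × ℕ)) : fV G a = ((a.1 : ℝ) / unitP) • G.vec a.2 := rfl

/-- A floor of a weighted power. -/
lemma cast_floor_le (hc : c.src.good = true) (W k : ℕ) :
    ((W * c.src.p ^ k / c.src.q ^ k : ℕ) : ℝ) ≤ (W : ℝ) * c.src.t ^ k := by
  have hq := (D4.Lat.good.p_pos hc).2
  rw [D4.Lat.t, div_pow, ← mul_div_assoc]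
  refine Nat.cast_div_le.trans (le_of_eq ?_)
  push_cast
  rfl

/-- Weighted sums over kept slots dominate. -/
lemma kept_bound {f : ℕ → ℝ} (hf : ∀ u, f u ≤ 0) (l : List (ℕ × ℕ)) (d : ℕ) {S : List ℕ}
    (hS : S.Nodup) :
    lsum l (fun a => (a.2 : ℝ) / unitP / unitP * f a.1) ≤
      lsum (kept bitsW d l S) fun a => (a.2 : ℝ) / unitP * f (a.1 + d) := by
  have hu := unitP_pos
  set T := S.toFinset.image fun s => s + d
  have h1 := sum_slotSum (R := ℝ) l T fun u => f u / unitP / unitP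
  have h2 : lsum l (fun a => (a.2 : ℝ) / unitP / unitP * f a.1) ≤
      ∑ u ∈ T, (slotSum l u : ℝ) * (f u / unitP / unitP) := by
    rw [h1]
    refine lsum_le (g := fun a : ℕ × ℕ => if a.1 ∈ T then (a.2 : ℝ) * (f a.1 / unitP / unitP) else 0)
      fun a _ => ?_
    have : (a.2 : ℝ) / unitP / unitP * f a.1 = (a.2 : ℝ) * (f a.1 / unitP / unitP) := by ring
    rw [this]
    split_ifs
    · exact le_rfl
    · exact mul_nonpos_of_nonneg_of_nonpos (Nat.cast_nonneg _)
        (div_nonpos_of_nonpos_of_nonneg (div_nonpos_of_nonpos_of_nonneg (hf _) hu.le) hu.le)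
  refine h2.trans (le_of_eq_of_le (sum_image fun x _ y _ h => Nat.add_right_cancel h) ?_)
  rw [kept, lsum_map, lsum, ← List.sum_toFinset _ hS]
  refine sum_le_sum fun s _ => ?_
  have h3 := (Nat.cast_le (α := ℝ)).2 (Nat.div_mul_le_self (slotSum l (s + d)) (2 ^ bitsW))
  push_cast at h3
  have hb : ((2 : ℝ) ^ bitsW) = unitP := rfl
  rw [hb] at h3
  calc (slotSum l (s + d) : ℝ) * (f (s + d) / unitP / unitP)
      = (slotSum l (s + d) : ℝ) / unitP * (f (s + d) / unitP) := by ring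
    _ ≤ ((slotSum l (s + d) / 2 ^ bitsW : ℕ) : ℝ) * (f (s + d) / unitP) :=
        mul_le_mul_of_nonpos_right ((le_div_iff₀ hu).2 h3)
          (div_nonpos_of_nonpos_of_nonneg (hf _) hu.le)
    _ = _ := by ring

lemma lsum_lmul (l l' : List (ℕ × ℕ)) (f : ℕ × ℕ → ℝ) :
    lsum (lmul l l') f = lsum l fun a => lsum l' fun b => f (a.1 + b.1, a.2 * b.2) := by
  simp [lmul, lsum_flatMap, lsum_map]

lemma pt2_nn (hc : c.src.good = true) (o u : ℕ) : NN (c.pt2 o u) := by
  have ht := (t_pos hc).le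
  intro i
  fin_cases i <;> simp [Cfg.pt2] <;> exact zpow_nonneg ht _

lemma pt1_nn (hc : c.src.good = true) (o u : ℕ) : NN (c.pt1 o u) := by
  have ht := (t_pos hc).le
  intro i
  fin_cases i <;> simp [Cfg.pt1]; exact zpow_nonneg ht _

lemma div_mod_row (w A B : ℕ) (hB : B < w) : (A * w + B) / w = A ∧ (A * w + B) % w = B := by
  rw [add_comm, Nat.mul_comm, Nat.add_mul_div_left _ _ (by omega), Nat.add_mul_mod_self_left,
    Nat.div_eq_of_lt hB, Nat.mod_eq_of_lt hB]
  simp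

lemma slot2_eq (hc : c.src.good = true) {e : ℕ × ℕ × ℕ}
    (he : e.1 ≤ c.src.L ∧ e.2.1 ≤ c.src.L ∧ e.2.2 ≤ c.src.L) (W : ℕ) {s : ℕ}
    (hs : s % c.w < 2 * c.C + 1) :
    (fun i => c.src.vec e i * c.pt2 c.C s i) =
      c.src.t ^ e.2.2 • c.pt2 (c.C + c.src.L) (s + (c.atom2 W e).1) := by
  have ht := (t_pos hc).ne'
  have hsum : s + (c.atom2 W e).1 = (s / c.w + (e.1 + c.src.L - e.2.2)) * c.w +
      (s % c.w + (e.2.1 + c.src.L - e.2.2)) := by
    simp only [Cfg.atom2]
    nth_rewrite 1 [← Nat.div_add_mod' s c.w]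
    ring
  obtain ⟨h1, h2⟩ := div_mod_row c.w (s / c.w + (e.1 + c.src.L - e.2.2))
    (s % c.w + (e.2.1 + c.src.L - e.2.2)) (by have : c.w = 2 * (c.C + c.src.L) + 1 := rfl; omega)
  rw [← hsum] at h1 h2
  funext i
  fin_cases i <;> simp [Lat.vec, expo, Cfg.pt2, h1, h2]
  · rw [← zpow_natCast, ← zpow_natCast _ e.2.2, ← zpow_add₀ ht, ← zpow_add₀ ht]
    congr 1; omega
  · rw [← zpow_natCast, ← zpow_natCast _ e.2.2, ← zpow_add₀ ht, ← zpow_add₀ ht]
    congr 1; omega

lemma slot2_back {s : ℕ} (hs : s % c.w < 2 * c.C + 1) :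
    c.pt2 (c.C + c.src.L) (s + (c.src.L * c.w + c.src.L)) = c.pt2 c.C s := by
  obtain ⟨h1, h2⟩ := div_mod_row c.w (s / c.w + c.src.L) (s % c.w + c.src.L)
    (by have : c.w = 2 * (c.C + c.src.L) + 1 := rfl; omega)
  have hsum : s + (c.src.L * c.w + c.src.L) =
      (s / c.w + c.src.L) * c.w + (s % c.w + c.src.L) := by
    nth_rewrite 1 [← Nat.div_add_mod' s c.w]
    ring
  rw [← hsum] at h1 h2
  simp only [Cfg.pt2, h1, h2, Nat.cast_add, add_sub_add_right_eq_sub]

/-- Horner's rule on the sector chart bounds the truncated generating function. -/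
theorem horner_sound (hc : c.src.good = true) (hK : bitsW ≤ c.K) (W : List ℕ) :
    ∀ (ps : List ℕ),
      (horner c.K (c.K * (c.src.L * c.w + c.src.L) + bitsW) c.mask2 (c.C * c.w + c.C)
        (pack c.K (c.atoms Cfg.atom2 W)) (mass (c.atoms Cfg.atom2 W)) ps).2.2 = true →
      ∃ l : List (ℕ × ℕ),
        (horner c.K (c.K * (c.src.L * c.w + c.src.L) + bitsW) c.mask2 (c.C * c.w + c.C)
          (pack c.K (c.atoms Cfg.atom2 W)) (mass (c.atoms Cfg.atom2 W)) ps).1 = pack c.K l ∧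
        mass l ≤ (horner c.K (c.K * (c.src.L * c.w + c.src.L) + bitsW) c.mask2
          (c.C * c.w + c.C) (pack c.K (c.atoms Cfg.atom2 W)) (mass (c.atoms Cfg.atom2 W)) ps).2.1 ∧
        mass l < 2 ^ c.K ∧ (∀ a ∈ l, a.1 ∈ c.win2) ∧
        ∀ H, Neg H → horR (fvecs c.src W) ps H ≤
          lsum l fun a => (a.2 : ℝ) / unitP * H (c.pt2 c.C a.1) := by
  intro ps
  induction ps with
  | nil =>
    intro _
    exact ⟨[], rfl, le_rfl, Nat.two_pow_pos _, by simp, fun H _ => le_rfl⟩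
  | cons P ps ih =>
    intro h
    simp only [horner, Bool.and_eq_true, decide_eq_true_eq] at h ⊢
    obtain ⟨⟨h0, h1⟩, h2⟩ := h
    obtain ⟨l, hN, hM, -, hwin, hb⟩ := ih h0
    set F := c.atoms Cfg.atom2 W with hF
    set d := c.src.L * c.w + c.src.L
    have hK0 : 0 < c.K := lt_of_lt_of_le (by decide) hK
    have hS : c.win2.Nodup := List.nodup_range.filter _
    have hprod : mass (lmul l F) < 2 ^ c.K := by
      rw [mass_lmul]; exact (Nat.mul_le_mul_right _ hM).trans_lt h1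
    have hctr : c.C * c.w + c.C ∈ c.win2 := by
      obtain ⟨e1, e2⟩ := div_mod_row c.w c.C c.C (by simp [Cfg.w]; omega)
      rw [mem_win2, e1, e2]; omega
    have hmass : mass (kept bitsW d (lmul l F) c.win2 ++ [(c.C * c.w + c.C, P)]) ≤
        (horner c.K (c.K * d + bitsW) c.mask2 (c.C * c.w + c.C) (pack c.K F) (mass F) ps).2.1 *
          mass F / 2 ^ bitsW + P := by
      rw [mass_append]
      refine add_le_add ((mass_kept _ _ _ hS).trans (Nat.div_le_div_right ?_)) (by simp [mass])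
      rw [mass_lmul]
      exact Nat.mul_le_mul_right _ hM
    refine ⟨kept bitsW d (lmul l F) c.win2 ++ [(c.C * c.w + c.C, P)], ?_, hmass,
      hmass.trans_lt h2, ?_, ?_⟩
    · rw [hN, ← pack_lmul, shift_mask_pack hK0 hK hprod hS digit_mask2, pack_append]
      simp [pack]
    · intro a ha
      rcases List.mem_append.1 ha with ha | ha
      · obtain ⟨s, hs, rfl⟩ := List.mem_map.1 ha
        exact hs
      · rw [List.mem_singleton.1 ha]; exact hctr
    intro H hH
    have hpt : c.pt2 c.C (c.C * c.w + c.C) = fun _ => 1 := by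
      obtain ⟨e1, e2⟩ := div_mod_row c.w c.C c.C (by simp [Cfg.w]; omega)
      funext i; fin_cases i <;> simp [Cfg.pt2, e1, e2]
    have hu := unitP_pos
    have hstep : lsum (fvecs c.src W) (fun a => horR (fvecs c.src W) ps fun x =>
        H fun i => a i * x i) ≤ lsum (lmul l F) fun z =>
          (z.2 : ℝ) / unitP / unitP * H (c.pt2 (c.C + c.src.L) z.1) := by
      rw [lsum_lmul, lsum_comm l, hF, atoms_base, lsum_map, fvecs, lsum_map]
      refine lsum_le fun a ha => ?_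
      have hvn := vec_nn hc a.2
      have han : NN (fV c.src a) := fun i =>
        mul_nonneg (div_nonneg (Nat.cast_nonneg _) hu.le) (hvn i)
      refine (hb _ (hH.comp_mul han)).trans (lsum_le fun z hz => ?_)
      have hs := (mem_win2.1 (hwin z hz)).2
      have e : (fun i => fV c.src a i * c.pt2 c.C z.1 i) =
          ((a.1 : ℝ) / unitP * c.src.t ^ a.2.2.2) •
            c.pt2 (c.C + c.src.L) (z.1 + (c.atom2 a.1 a.2).1) := by
        rw [mul_smul, ← slot2_eq hc (base_mem hc ha) a.1 hs]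
        funext i
        simp [fV, mul_assoc]
      have ht := pow_nonneg (t_pos hc).le a.2.2.2
      rw [e, hH.smul _ (mul_nonneg (div_nonneg (Nat.cast_nonneg _) hu.le) ht) _ (pt2_nn hc _ _),
        Nat.cast_mul]
      have hfl := cast_floor_le hc a.1 a.2.2.2
      have hH0 := hH.nonpos _ (pt2_nn hc (c.C + c.src.L) (z.1 + (c.atom2 a.1 a.2).1))
      rw [← mul_assoc]
      refine mul_le_mul_of_nonpos_right ?_ hH0
      show (z.2 : ℝ) * ((a.1 * c.src.p ^ a.2.2.2 / c.src.q ^ a.2.2.2 : ℕ) : ℝ) / unitP / unitP ≤ _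
      rw [mul_comm (a.1 : ℝ) (c.src.t ^ _)] at hfl
      calc (z.2 : ℝ) * ((a.1 * c.src.p ^ a.2.2.2 / c.src.q ^ a.2.2.2 : ℕ) : ℝ) / unitP / unitP
          ≤ (z.2 : ℝ) * (c.src.t ^ a.2.2.2 * a.1) / unitP / unitP := by gcongr
        _ = _ := by ring
    have hk := hstep.trans (kept_bound (fun u => hH.nonpos _ (pt2_nn hc _ u)) _ d hS)
    simp only [horR, lsum_append, lsum_cons, lsum_nil, add_zero, hpt]
    rw [add_comm (((P : ℕ) : ℝ) / unitP * _)]
    refine add_le_add (hk.trans (le_of_eq (lsum_congr fun z hz => ?_))) le_rfl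
    obtain ⟨s, hs, rfl⟩ := List.mem_map.1 hz
    simp only [slot2_back (mem_win2.1 hs).2, d]

end Vale.Agent.P154.NegTrans
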