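import Vale.Agent.P154.NegTrans.Comp
import Vale.Agent.P154.D4.Digits

/-!
Digits of packed numbers: products, and shifts followed by a mask.
-/

namespace Vale.Agent.P154.NegTrans

open Finset D4

/-- Total weight of a slot. -/
def slotSum (l : List (ℕ × ℕ)) (s : ℕ) : ℕ := (l.map fun a => if a.1 = s then a.2 else 0).sum

lemma slotSum_le (l : List (ℕ × ℕ)) (s : ℕ) : slotSum l s ≤ mass l := by
  rw [mass_eq]
  exact List.sum_le_sum fun a _ => by split_ifs <;> simp

/-- Weights of a set of slots. -/
lemma sum_slotSum {R : Type*} [CommSemiring R] (l : List (ℕ × ℕ)) (S : Finset ℕ) (f : ℕ → R) :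
    ∑ s ∈ S, (slotSum l s : R) * f s =
      (l.map fun a => if a.1 ∈ S then (a.2 : R) * f a.1 else 0).sum := by
  induction l with
  | nil => simp [slotSum]
  | cons a l ih =>
    simp only [slotSum, List.map_cons, List.sum_cons, Nat.cast_add, add_mul, sum_add_distrib]
    simp only [slotSum] at ih
    rw [ih]
    congr 1
    by_cases h : a.1 ∈ S <;> simp [h, Nat.cast_ite, ite_mul]

lemma sum_slotSum_le (l : List (ℕ × ℕ)) (S : Finset ℕ) : ∑ s ∈ S, slotSum l s ≤ mass l := by
  have h := sum_slotSum (R := ℕ) l S fun _ => 1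
  simp only [mul_one, Nat.cast_id] at h
  rw [h, mass_eq]
  exact List.sum_le_sum fun a _ => by split_ifs <;> simp

lemma le_sum_slots {l : List (ℕ × ℕ)} {a : ℕ × ℕ} (ha : a ∈ l) : a.1 ≤ (l.map Prod.fst).sum :=
  List.le_sum_of_mem (List.mem_map.2 ⟨a, ha, rfl⟩)

lemma pack_eq_sum (K : ℕ) (l : List (ℕ × ℕ)) {N : ℕ} (h : ∀ a ∈ l, a.1 < N) :
    pack K l = ∑ s ∈ range N, slotSum l s * 2 ^ (K * s) := by
  have e := sum_slotSum (R := ℕ) l (range N) fun s => 2 ^ (K * s)
  simp only [Nat.cast_id] at e
  rw [e, pack_eq]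
  exact congrArg List.sum (List.map_congr_left fun a ha => by rw [if_pos (mem_range.2 (h a ha))])

lemma digit_pack {K : ℕ} {l : List (ℕ × ℕ)} (h : mass l < 2 ^ K) (s : ℕ) :
    digit K (pack K l) s = slotSum l s := by
  rw [pack_eq_sum K l (N := (l.map Prod.fst).sum + 1 + s)
    (fun a ha => by have := le_sum_slots ha; omega),
    digit_sum _ _ (fun t => (slotSum_le l t).trans_lt h), if_pos (by omega)]

lemma testBit_digit (K N s i : ℕ) :
    (digit K N s).testBit i = (decide (i < K) && N.testBit (K * s + i)) := by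
  simp only [digit, Nat.testBit_and, Nat.testBit_shiftRight, Nat.testBit_two_pow_sub_one]
  rw [Bool.and_comm]

lemma digit_ext {K : ℕ} (hK : 0 < K) {X Y : ℕ} (h : ∀ s, digit K X s = digit K Y s) : X = Y := by
  refine Nat.eq_of_testBit_eq fun j => ?_
  have h1 := congrArg (fun z => z.testBit (j % K)) (h (j / K))
  simpa [testBit_digit, Nat.mod_lt _ hK, Nat.div_add_mod] using h1

lemma rep_eq (K v : ℕ) : ∀ n, rep K v n = ∑ s ∈ range n, v * 2 ^ (K * s)
  | 0 => rfl
  | n + 1 => by
    rw [rep, rep_eq K v n, Nat.shiftLeft_eq, sum_range_succ', sum_mul]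
    congr 1
    · exact sum_congr rfl fun s _ => by rw [Nat.mul_succ, pow_add]; ring
    · simp

lemma digit_rep {K v : ℕ} (hv : v < 2 ^ K) (n s : ℕ) :
    digit K (rep K v n) s = if s < n then v else 0 := by
  rw [rep_eq, digit_sum n (fun _ => v) fun _ => hv]

lemma digit_nest (K w X A : ℕ) {B : ℕ} (hB : B < w) :
    digit K X (A * w + B) = digit K (digit (K * w) X A) B := by
  refine Nat.eq_of_testBit_eq fun i => ?_
  simp only [testBit_digit]
  by_cases hi : i < K
  · have : K * B + i < K * w := by
      have := Nat.mul_le_mul_left K (Nat.succ_le_of_lt hB)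
      rw [Nat.mul_succ] at this
      omega
    simp only [hi, this, decide_true, Bool.true_and]
    congr 1
    ring
  · simp [hi]

/-- A shift and a mask round the digits down. -/
lemma digit_shift_mask {K b d : ℕ} (hb : b ≤ K) (N M s : ℕ)
    (hM : digit K M s = 0 ∨ digit K M s = 2 ^ (K - b) - 1) :
    digit K ((N >>> (K * d + b)) &&& M) s =
      if digit K M s = 0 then 0 else digit K N (s + d) / 2 ^ b := by
  refine Nat.eq_of_testBit_eq fun i => ?_
  have key : (digit K ((N >>> (K * d + b)) &&& M) s).testBit i =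
      (decide (i < K) && N.testBit (K * d + b + (K * s + i)) && (digit K M s).testBit i) := by
    simp only [testBit_digit, Nat.testBit_and, Nat.testBit_shiftRight]
    cases decide (i < K) <;> simp
  rw [key]
  rcases hM with h | h
  · simp [h]
  · by_cases hz : digit K M s = 0
    · simp [hz]
    · rw [if_neg hz, h, Nat.testBit_two_pow_sub_one, Nat.testBit_div_two_pow, testBit_digit]
      by_cases hi : i + b < K
      · have e : K * d + b + (K * s + i) = K * (s + d) + (i + b) := by ring
        simp [hi, show i < K by omega, show i < K - b by omega, e]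
      · simp [hi, show ¬i < K - b by omega]

/-- Products of packed numbers. -/
def lmul (l l' : List (ℕ × ℕ)) : List (ℕ × ℕ) :=
  l.flatMap fun a => l'.map fun b => (a.1 + b.1, a.2 * b.2)

lemma pack_append (K : ℕ) (l l' : List (ℕ × ℕ)) : pack K (l ++ l') = pack K l + pack K l' := by
  simp [pack_eq]

lemma mass_append (l l' : List (ℕ × ℕ)) : mass (l ++ l') = mass l + mass l' := by
  simp [mass_eq]

lemma pack_lmul (K : ℕ) (l l' : List (ℕ × ℕ)) : pack K (lmul l l') = pack K l * pack K l' := by
  induction l with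
  | nil => simp [lmul, pack]
  | cons a l ih =>
    have hh : pack K (l'.map fun b => (a.1 + b.1, a.2 * b.2)) =
        a.2 * 2 ^ (K * a.1) * pack K l' := by
      rw [pack_eq, pack_eq, List.map_map, ← List.sum_map_mul_left]
      refine congrArg List.sum (List.map_congr_left fun b _ => ?_)
      simp only [Function.comp, mul_add, pow_add]
      ring
    rw [lmul, List.flatMap_cons, pack_append, hh, ← lmul, ih]
    simp only [pack, Nat.shiftLeft_eq]
    ring

lemma mass_lmul (l l' : List (ℕ × ℕ)) : mass (lmul l l') = mass l * mass l' := by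
  induction l with
  | nil => simp [lmul, mass]
  | cons a l ih =>
    have hh : mass (l'.map fun b => (a.1 + b.1, a.2 * b.2)) = a.2 * mass l' := by
      rw [mass_eq, mass_eq, List.map_map, ← List.sum_map_mul_left]
      rfl
    rw [lmul, List.flatMap_cons, mass_append, hh, ← lmul, ih]
    simp only [mass]
    ring

/-- The slots kept by a mask, shifted back and rounded down. -/
def kept (b d : ℕ) (l : List (ℕ × ℕ)) (S : List ℕ) : List (ℕ × ℕ) :=
  S.map fun s => (s, slotSum l (s + d) / 2 ^ b)

lemma mass_kept (b d : ℕ) (l : List (ℕ × ℕ)) {S : List ℕ} (hS : S.Nodup) :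
    mass (kept b d l S) ≤ mass l / 2 ^ b := by
  rw [Nat.le_div_iff_mul_le (Nat.two_pow_pos b), mass_eq, kept, List.map_map,
    ← List.sum_toFinset _ hS, sum_mul]
  refine le_trans (sum_le_sum fun s _ => Nat.div_mul_le_self (slotSum l (s + d)) (2 ^ b)) ?_
  refine le_trans (le_of_eq ?_) (sum_slotSum_le l (S.toFinset.image fun s => s + d))
  rw [sum_image fun x _ y _ h => Nat.add_right_cancel h]

lemma slotSum_kept (b d : ℕ) (l : List (ℕ × ℕ)) {S : List ℕ} (hS : S.Nodup) (s : ℕ) :
    slotSum (kept b d l S) s = if s ∈ S then slotSum l (s + d) / 2 ^ b else 0 := by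
  rw [slotSum, kept, List.map_map, ← List.sum_toFinset _ hS]
  simp [Finset.sum_ite_eq']

/-- A masked shift is again a packed number. -/
lemma shift_mask_pack {K b d : ℕ} (hK : 0 < K) (hb : b ≤ K) {l : List (ℕ × ℕ)}
    (hl : mass l < 2 ^ K) {M : ℕ} {S : List ℕ} (hS : S.Nodup) [DecidablePred (· ∈ S)]
    (hM : ∀ s, digit K M s = if s ∈ S then 2 ^ (K - b) - 1 else 0) :
    ((pack K l) >>> (K * d + b)) &&& M = pack K (kept b d l S) := by
  refine digit_ext hK fun s => ?_
  have hk : mass (kept b d l S) < 2 ^ K :=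
    (mass_kept b d l hS).trans_lt ((Nat.div_le_self _ _).trans_lt hl)
  rw [digit_shift_mask hb _ _ _ (by rw [hM]; split_ifs <;> simp), digit_pack hk, digit_pack hl,
    slotSum_kept _ _ _ hS, hM]
  by_cases h : s ∈ S
  · rw [if_pos h, if_pos h]
    split_ifs with h0
    · rcases Nat.eq_or_lt_of_le hb with rfl | hlt
      · exact (Nat.div_eq_of_lt ((slotSum_le _ _).trans_lt hl)).symm
      · have : 2 ≤ 2 ^ (K - b) := Nat.le_self_pow (by omega) 2
        omega
    · rfl
  · simp [h]

end Vale.Agent.P154.NegTrans
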