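import Vale.Agent.P154.NegTrans.Bdd

/-!
Galton-Watson averages of the root and edge observations, and their recursion in the depth.
-/

namespace Vale.Agent.P154.NegTrans

open Finset Tr D4

variable {lam : ℝ} (h : -1 ≤ lam * (((3 : ℕ) : ℝ) - 1)) (h' : lam ≤ 1) (d : ℝ)

/-- The averaged observation of the root at depth `n`. -/
noncomputable def root (n : ℕ) (G : (Fin 3 → ℝ) → ℝ) : ℝ :=
  ev (gwWeight d n) fun T => (treeE lam h h' n T).S G

/-- The averaged observation of the root through one edge. -/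
noncomputable def edge (n : ℕ) (G : (Fin 3 → ℝ) → ℝ) : ℝ :=
  root h h' d n fun w => G (chanV lam w)

variable {h h' d} {G : (Fin 3 → ℝ) → ℝ} {n k : ℕ}

lemma fib_abs_le (hd : 0 ≤ d) {C : ℝ} (hC : ∀ x, NN x → |G x| ≤ C * (x 0 + x 1 + x 2)) :
    |fib lam h h' d n k G| ≤ C * 3 :=
  ev_abs_le (prob1_kidW hd n k) fun _ => ens_bound hC _

lemma root_abs_le (hd : 0 ≤ d) {C : ℝ} (hC : ∀ x, NN x → |G x| ≤ C * (x 0 + x 1 + x 2)) :
    |root h h' d n G| ≤ C * 3 :=
  ev_abs_le (prob1_gw hd n) fun _ => ens_bound hC _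

lemma slot_kids_abs_le {C : ℝ} (hC : ∀ x, NN x → |G x| ≤ C * (x 0 + x 1 + x 2)) (e : Ens 3)
    (x : Fin k → Tree n) : |(kids lam h h' n k x).S (slot e G)| ≤ C * 3 := by
  rw [← S_mul_slot]; exact ens_bound hC _

lemma fib_slot_abs_le (hd : 0 ≤ d) {C : ℝ} (hC : ∀ x, NN x → |G x| ≤ C * (x 0 + x 1 + x 2))
    (e : Ens 3) : |fib lam h h' d n k (slot e G)| ≤ C * 3 :=
  ev_abs_le (prob1_kidW hd n k) fun x => slot_kids_abs_le hC e x

lemma fib_zero (hd : 0 ≤ d) : fib lam h h' d n 0 G = G fun _ => 1 := by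
  have : ∀ x : Fin 0 → Tree n, (kids lam h h' n 0 x).S G = G fun _ => 1 := fun x => by
    show ∑ _x : Unit, G (fun _ => 1) = _
    simp
  simp only [fib, this, ev_const (prob1_kidW hd n 0)]

lemma fib_cons (hd : 0 ≤ d) (hG : SubP G) :
    fib lam h h' d n (k + 1) G = ev (gwWeight d n) fun t =>
      fib lam h h' d n k (slot ((treeE lam h h' n t).chanE lam h h') G) := by
  obtain ⟨C, hC⟩ := subP_bound hG
  have hs := ev_summable (prob1_kidW hd n (k + 1)) (f := fun x => (kids lam h h' n (k + 1) x).S G)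
    fun x => ens_bound hC _
  rw [fib, ev, ← (Fin.consEquiv fun _ : Fin (k + 1) => Tree n).tsum_eq]
  rw [← (Fin.consEquiv fun _ : Fin (k + 1) => Tree n).summable_iff] at hs
  simp only [Function.comp_def] at hs
  rw [hs.tsum_prod, ev]
  refine tsum_congr fun t => ?_
  rw [fib, ev, ← tsum_mul_left]
  refine tsum_congr fun x => ?_
  rw [← S_mul_slot, ← mul_assoc]
  simp only [kidW, kids, Fin.consEquiv_apply, Fin.prod_univ_succ,
    Fin.cons_zero, Fin.cons_succ, Ens.prodE]

lemma root_succ (hd : 0 ≤ d) (hG : SubP G) (n : ℕ) :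
    root h h' d (n + 1) G = ev (GW.pois d) fun k => fib lam h h' d n k G := by
  obtain ⟨C, hC⟩ := subP_bound hG
  have hP : Prob1 (GW.pois d) := ⟨GW.pois_nonneg hd, GW.hasSum_pois d⟩
  refine HasSum.tsum_eq ?_
  refine GW.hasSum_of_fibres hd n _ (fun k => fib lam h h' d n k G) _ (fun k => ?_)
    (ev_summable hP fun k => fib_abs_le hd hC).hasSum ?_
  · exact (ev_summable (prob1_kidW hd n k) fun x => ens_bound hC _).hasSum
  · refine ev_summable hP (B := C * 3) fun k => ev_abs_le (prob1_kidW hd n k) fun x => ?_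
    rw [abs_abs]
    exact ens_bound hC _

/-- The order of the two observations is immaterial. -/
lemma slot_swap {d' lam' : ℝ} {g : -1 ≤ lam' * (((3 : ℕ) : ℝ) - 1)} {g' : lam' ≤ 1} {m : ℕ}
    (hd : 0 ≤ d) (hd' : 0 ≤ d') (hG : SubP G) :
    ev (gwWeight d' m) (fun t => fib lam h h' d n k (slot ((treeE lam' g g' m t).chanE lam' g g') G)) =
      ev (kidW d n k) fun x => edge g g' d' m (slot (kids lam h h' n k x) G) := by
  obtain ⟨C, hC⟩ := subP_bound hG
  simp only [fib, edge, root]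
  rw [ev_swap (prob1_gw hd' m) (prob1_kidW hd n k)
    fun t x => slot_kids_abs_le hC _ x]
  refine congrArg _ (funext fun x => congrArg _ (funext fun t => ?_))
  rw [← S_mul_slot, S_mul_slot', Ens.S_chanE]

lemma fib_succ_edge (hd : 0 ≤ d) (hG : SubP G) :
    fib lam h h' d n (k + 1) G =
      ev (kidW d n k) fun x => edge h h' d n (slot (kids lam h h' n k x) G) := by
  rw [fib_cons hd hG, slot_swap hd hd hG]

lemma edge_slot_abs_le (hd : 0 ≤ d) {C : ℝ} (hC : ∀ x, NN x → |G x| ≤ C * (x 0 + x 1 + x 2))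
    (e : Ens 3) : |edge h h' d n (slot e G)| ≤ C * 3 := by
  refine ev_abs_le (prob1_gw hd n) fun t => ?_
  rw [← Ens.S_chanE _ lam h h', ← S_mul_slot]
  exact ens_bound hC _

lemma one_le_edge (hd : 0 ≤ d) (hG : SubP G) : G (fun _ => 1) ≤ edge h h' d n G := by
  obtain ⟨C, hC⟩ := subP_bound hG
  have hb : ∀ t, |(treeE lam h h' n t).S fun w => G (chanV lam w)| ≤ C * 3 := fun t => by
    rw [← Ens.S_chanE _ lam h h']; exact ens_bound hC _
  nth_rewrite 1 [← ev_const (prob1_gw hd n) (G fun _ => 1)]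
  refine ev_le_ev (prob1_gw hd n) (B := |G fun _ => 1|) (fun _ => le_rfl) hb fun t => ?_
  rw [← Ens.S_chanE _ lam h h']
  exact one_le_S hG _

lemma slot_one (e : Ens 3) : slot e G (fun _ => 1) = e.S G := by
  simp [slot]

/-- More children, more information. -/
lemma fib_mono (hd : 0 ≤ d) (hG : SubP G) : Monotone fun k => fib lam h h' d n k G := by
  obtain ⟨C, hC⟩ := subP_bound hG
  refine monotone_nat_of_le_succ fun k => ?_
  show fib lam h h' d n k G ≤ fib lam h h' d n (k + 1) G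
  rw [fib_succ_edge hd hG]
  refine ev_le_ev (prob1_kidW hd n k) (fun x => ens_bound hC _)
    (fun x => edge_slot_abs_le hd hC _) fun x => ?_
  rw [← slot_one (G := G)]
  exact one_le_edge hd (subP_slot hG _)

end Vale.Agent.P154.NegTrans
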