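import Vale.Agent.P154.NegTrans.Step

/-!
Several generations of the computation.
-/

namespace Vale.Agent.P154.NegTrans

open D4

/-- The lower bounds of the offspring probabilities `exp (-a / b) (a / b) ^ k / k!`. -/
def pwOk (a b u v : ℕ) : ℕ → List ℕ → Bool
  | _, [] => true
  | k, P :: ps =>
    decide (P * (Nat.factorial k * b ^ k * u) ≤ 2 ^ bitsP * a ^ k * v) && pwOk a b u v (k + 1) ps

lemma pwOk_getD {a b u v : ℕ} : ∀ (ps : List ℕ) (k0 : ℕ), pwOk a b u v k0 ps = true →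
    ∀ k < ps.length, ps.getD k 0 * (Nat.factorial (k0 + k) * b ^ (k0 + k) * u) ≤
      2 ^ bitsP * a ^ (k0 + k) * v
  | P :: ps, k0, h, k, hk => by
    simp only [pwOk, Bool.and_eq_true, decide_eq_true_eq] at h
    cases k with
    | zero => simpa using h.1
    | succ k =>
      rw [List.getD_cons_succ, show k0 + (k + 1) = k0 + 1 + k by omega]
      exact pwOk_getD ps (k0 + 1) h.2 k (by simpa using hk)

lemma pw_lower {a b u v : ℕ} (hb : 0 < b) (hv : 0 < v)
    (hu : Real.exp ((a : ℝ) / b) ≤ (u : ℝ) / v) {ps : List ℕ} (h : pwOk a b u v 0 ps = true) :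
    ∀ k < ps.length, ((ps.getD k 0 : ℕ) : ℝ) / unitP ≤ GW.pois ((a : ℝ) / b) k := by
  intro k hk
  refine pois_lower hb hv hu ?_
  simpa using pwOk_getD ps 0 h k hk

/-- An upper bound of the exponential on `[0, 8]`. -/
lemma exp_le {x : ℝ} (h0 : 0 ≤ x) (h8 : x ≤ 8) :
    Real.exp x ≤ ((∑ m ∈ Finset.range 14, (x / 8) ^ m / (Nat.factorial m : ℝ)) +
      (x / 8) ^ 14 * 15 / ((Nat.factorial 14 : ℝ) * 14)) ^ 8 := by
  have h := Real.exp_bound' (x := x / 8) (by linarith) (by linarith) (n := 14) (by norm_num)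
  have e : Real.exp x = Real.exp (x / 8) ^ 8 := by
    rw [← Real.exp_nat_mul]; congr 1; push_cast; ring
  rw [e]
  refine pow_le_pow_left₀ (Real.exp_pos _).le (h.trans (le_of_eq ?_)) 8
  norm_num

variable {lam d : ℝ} {h : -1 ≤ lam * (((3 : ℕ) : ℝ) - 1)} {h' : lam ≤ 1}

theorem run_sound (c : Cfg) (hok : c.ok c.src = true) (hlam : lam = -((c.ln : ℝ) / c.lq))
    (hd : 0 ≤ d) (hps : ∀ k < c.pw.length, ((c.pw.getD k 0 : ℕ) : ℝ) / unitP ≤ GW.pois d k) :
    ∀ (m : ℕ) {s s' : State} {n : ℕ}, c.run m s = (s', true) → Up h h' d n c.src s →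
      Up h h' d (n + m) c.src s' := by
  intro m
  induction m with
  | zero =>
    intro s s' n hr hu
    simp only [Cfg.run, Prod.mk.injEq] at hr
    rw [← hr.1]
    exact hu
  | succ m ih =>
    intro s s' n hr hu
    simp only [Cfg.run, Prod.mk.injEq, Bool.and_eq_true] at hr
    obtain ⟨h1, ⟨h2, h3⟩, h4⟩ := hr
    have := ih (Prod.ext h1 h4) (step_sound c c.src hok hlam hd hps (Prod.ext rfl h2) h3 hu)
    rw [show n + (m + 1) = n + 1 + m by omega]
    exact this

end Vale.Agent.P154.NegTrans
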