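import Vale.Agent.P154.NegTrans.Face

/-!
Reduction of symmetric test functions to one sector and one face.
-/

namespace Vale.Agent.P154.NegTrans

open Finset D4

/-- The multiple of `H` carried by the sector `x₀ ≥ x₁ ≥ x₂ > 0` and the face `x₂ = 0`. -/
noncomputable def secM (x : Fin 3 → ℝ) : ℝ :=
  if x 2 = 0 then (if 0 < x 0 ∧ 0 < x 1 then 3 else 0)
  else if x 1 ≤ x 0 ∧ x 2 ≤ x 1 then
    (if x 0 = x 1 then (if x 1 = x 2 then 1 else 3) else (if x 1 = x 2 then 3 else 6))
  else 0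

/-- A function supported on the sector and the face, with the same symmetrisation. -/
noncomputable def sec (H : (Fin 3 → ℝ) → ℝ) (x : Fin 3 → ℝ) : ℝ := secM x * H x

lemma secM_nonneg (x : Fin 3 → ℝ) : 0 ≤ secM x := by
  unfold secM; split_ifs <;> norm_num

lemma secM_smul {c : ℝ} (hc : 0 < c) (x : Fin 3 → ℝ) : secM (c • x) = secM x := by
  simp only [secM, Pi.smul_apply, smul_eq_mul, mul_eq_zero, hc.ne', false_or,
    mul_pos_iff_of_pos_left hc, mul_le_mul_iff_right₀ hc, mul_right_inj' hc.ne']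

lemma test_zero_fun {g : (Fin 3 → ℝ) → ℝ} (hg : Test g) : g (fun _ => 0) = 0 := by
  simpa [Pi.zero_def] using hg.subP.smul 0 le_rfl 0 fun _ => le_rfl

lemma test_axis {g : (Fin 3 → ℝ) → ℝ} (hg : Test g) {a : ℝ} (ha : 0 ≤ a) (i : Fin 3) :
    g (fun j => if j = i then a else 0) = 0 := by
  have hn : NN fun j : Fin 3 => if j = i then (1 : ℝ) else 0 := fun j => by
    dsimp only; split_ifs <;> norm_num
  have e : (fun j : Fin 3 => if j = i then a else 0) = a • fun j => if j = i then (1 : ℝ) else 0 := by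
    funext j; simp
  rw [e, hg.subP.smul a ha _ hn, hg.unit i, mul_zero]

lemma Test.neg {g : (Fin 3 → ℝ) → ℝ} (hg : Test g) : Neg g :=
  ⟨fun _ hx => hg.nonpos hx, fun c hc x hx => hg.subP.smul c hc x hx⟩

lemma sec_neg {g : (Fin 3 → ℝ) → ℝ} (hg : Test g) : Neg (sec g) := by
  refine ⟨fun x hx => mul_nonpos_of_nonneg_of_nonpos (secM_nonneg x) (hg.nonpos hx),
    fun c hc x hx => ?_⟩
  simp only [sec, hg.subP.smul c hc x hx]
  rcases hc.eq_or_lt with rfl | hc'
  · simp
  · rw [secM_smul hc']; ring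

lemma perm3_sum (f : (Fin 3 → ℝ) → ℝ) (x : Fin 3 → ℝ) :
    ∑ σ : Equiv.Perm (Fin 3), f (fun i => x (σ i)) =
      f ![x 0, x 1, x 2] + f ![x 1, x 0, x 2] + f ![x 2, x 1, x 0] + f ![x 0, x 2, x 1] +
        f ![x 1, x 2, x 0] + f ![x 2, x 0, x 1] := by
  rw [show (univ : Finset (Equiv.Perm (Fin 3))) =
      {1, Equiv.swap 0 1, Equiv.swap 0 2, Equiv.swap 1 2, Equiv.swap 0 1 * Equiv.swap 1 2,
        Equiv.swap 1 2 * Equiv.swap 0 1} by decide]
  rw [sum_insert (by decide), sum_insert (by decide), sum_insert (by decide),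
    sum_insert (by decide), sum_insert (by decide), sum_singleton]
  simp only [perm_vec]
  simp [Equiv.swap_apply_def]
  ring

lemma sec_sum {g : (Fin 3 → ℝ) → ℝ} (hg : Test g) {x : Fin 3 → ℝ} (hx : NN x) :
    ∑ σ : Equiv.Perm (Fin 3), sec g (fun i => x (σ i)) = 6 * g x := by
  suffices key : ∀ y : Fin 3 → ℝ, NN y → y 1 ≤ y 0 → y 2 ≤ y 1 →
      ∑ σ : Equiv.Perm (Fin 3), sec g (fun i => y (σ i)) = 6 * g y by
    have hs := Tuple.monotone_sort fun i => -x i
    set τ := Tuple.sort fun i => -x i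
    have h := key (fun i => x (τ i)) (fun i => hx _)
      (neg_le_neg_iff.1 (hs (show (0 : Fin 3) ≤ 1 by decide)))
      (neg_le_neg_iff.1 (hs (show (1 : Fin 3) ≤ 2 by decide)))
    rw [hg.symm τ x] at h
    rw [← h]
    exact (Equiv.sum_comp (Equiv.mulLeft τ) fun σ : Equiv.Perm (Fin 3) =>
      sec g fun i => x (σ i)).symm
  intro y hy h10 h21
  simp only [sec, hg.symm _ y]
  rw [← sum_mul, perm3_sum secM y]
  have hy2 := hy 2
  rcases hy2.eq_or_lt with h2 | h2
  · rcases (h2 ▸ h21 : (0 : ℝ) ≤ y 1).eq_or_lt with h1 | h1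
    · have : g y = 0 := by
        rw [← test_axis hg (hy 0) 0]
        refine congrArg g (funext fun i => ?_)
        fin_cases i <;> simp [← h1, ← h2]
      rw [this, mul_zero, mul_zero]
    · have h0 : 0 < y 0 := h1.trans_le h10
      simp [secM, ← h2, h0, h1, h0.ne', h1.ne', h0.not_ge, h1.not_ge]
      norm_num
  · have h1 : 0 < y 1 := h2.trans_le h21
    have h0 : 0 < y 0 := h1.trans_le h10
    rcases h10.eq_or_lt with e10 | e10 <;> rcases h21.eq_or_lt with e21 | e21
    · simp [secM, ← e10, e21, h1.ne']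
      norm_num
    · simp [secM, ← e10, h1.ne', h2.ne', e21.ne', e21.le, e21.not_ge]
      norm_num
    · simp [secM, e21, h1.ne', h0.ne', e10.ne', e10.le, e10.not_ge]
      norm_num
    · have e20 := e21.trans e10
      simp [secM, h0.ne', h1.ne', h2.ne', e10.ne', e10.le, e10.not_ge, e21.ne',
        e21.le, e21.not_ge, e20.not_ge]

variable {c : Cfg}

/-- The truncated generating function reduces to the sector and to the face. -/
theorem horR_split {g : (Fin 3 → ℝ) → ℝ} (hg : Test g) (hc : c.src.good = true) {s : State}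
    (hv : c.src.valid s = true) (ps : List ℕ) :
    horR (family c.src s) ps g ≤ horR (fvecs c.src s.W) ps (sec g) +
      dif (fvecs c.src s.W) ![s.e, s.e, 0] ps (fun x => sec g (proj x)) := by
  have hnn := family_nn hc hv
  have h6 : (Fintype.card (Equiv.Perm (Fin 3)) : ℝ) = 6 := by
    rw [Fintype.card_perm, Fintype.card_fin]; norm_num [Nat.factorial]
  have h1 : horR (family c.src s) ps (sec g) = horR (family c.src s) ps g := by
    have h := horR_congr hnn ps (H := fun x => ∑ σ : Equiv.Perm (Fin 3), sec g fun i => x (σ i))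
      (H' := fun x => 6 * g x) fun x hx => sec_sum hg hx
    rw [horR_sum, horR_const_mul] at h
    simp only [horR_perm (symL_family c.src s), sum_const, card_univ, nsmul_eq_mul, h6] at h
    linarith
  rw [← h1]
  have hsplit : family c.src s = (fvecs c.src s.W ++ [![s.e, s.e, 0]]) ++
      [![s.e, 0, s.e], ![0, s.e, s.e], ![restW c.src s, 0, 0], ![0, restW c.src s, 0],
        ![0, 0, restW c.src s]] := by
    simp [family, zvecs]
  rw [hsplit] at hnn ⊢
  refine (horR_append_le hnn ps (sec_neg hg)).trans (le_of_eq ?_)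
  rw [horR_snoc]
  refine congrArg₂ (· + ·) rfl (dif_congr (fun a ha => hnn a (by simp [ha]))
    (hnn _ (by simp)) (by simp) ps fun x _ hx => congrArg (sec g) (funext fun i => ?_))
  fin_cases i <;> simp [proj, hx]

lemma pow_lt_zpow {G : D4.Lat} (hG : G.good = true) (hpq : G.p < G.q) :
    0 < G.t ∧ G.t < 1 := by
  refine ⟨t_pos hG, ?_⟩
  rw [D4.Lat.t, div_lt_one (D4.Lat.good.p_pos hG).2]
  exact_mod_cast hpq

lemma secM_pt2 (hc : c.src.good = true) (hpq : c.src.p < c.src.q) {A B : ℕ} (hAB : A ≤ B)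
    (hB : B ≤ c.C) : secM (c.pt2 c.C (A * c.w + B)) = (mult c.C A B : ℝ) := by
  obtain ⟨h0, h1⟩ := pow_lt_zpow hc hpq
  obtain ⟨e1, e2⟩ := div_mod_row c.w A B (by simp [Cfg.w]; omega)
  have i1 : c.src.t ^ ((B : ℤ) - c.C) ≤ c.src.t ^ ((A : ℤ) - c.C) :=
    zpow_le_zpow_right_of_le_one₀ h0 h1.le (by omega)
  have i2 : 1 ≤ c.src.t ^ ((B : ℤ) - c.C) := one_le_zpow_of_nonpos₀ h0 h1.le (by omega)
  have inj := zpow_right_injective₀ h0 h1.ne
  have q1 : c.src.t ^ ((A : ℤ) - c.C) = c.src.t ^ ((B : ℤ) - c.C) ↔ A = B :=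
    inj.eq_iff.trans (by omega)
  have q2 : c.src.t ^ ((B : ℤ) - c.C) = 1 ↔ B = c.C := by
    rw [← zpow_zero c.src.t]; exact inj.eq_iff.trans (by omega)
  simp [secM, Cfg.pt2, e1, e2, i1, i2, q1, q2, mult]

lemma secM_pt1 (hc : c.src.good = true) (s : ℕ) : secM (c.pt1 c.C s) = 3 := by
  have := zpow_pos (t_pos hc) ((s : ℤ) - c.C)
  simp [secM, Cfg.pt1, this]

end Vale.Agent.P154.NegTrans
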