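import Vale.Agent.P154.NegTrans.Thin
import Vale.Agent.P154.NegTrans.Horner

/-!
An upper family of the edge gives one of the root, the offspring number being truncated.
-/

namespace Vale.Agent.P154.NegTrans

open Finset Tr D4

variable {lam d : ℝ} {h : -1 ≤ lam * (((3 : ℕ) : ℝ) - 1)} {h' : lam ≤ 1} {n : ℕ}
  {ws : List (Fin 3 → ℝ)}

lemma horR_subP (hws : ∀ a ∈ ws, NN a) : ∀ (ps : List ℕ) {G : (Fin 3 → ℝ) → ℝ}, SubP G →
    SubP fun z => horR ws ps fun w => G fun i => z i * w i := by
  intro ps
  induction ps with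
  | nil => intro G _; exact ⟨fun _ _ _ _ => (add_zero (0 : ℝ)).ge, fun c _ _ _ => (mul_zero c).symm⟩
  | cons P ps ih =>
    intro G hG
    have hc : ∀ (a : Fin 3 → ℝ) (z : Fin 3 → ℝ),
        (horR ws ps fun x => (fun w => G fun i => z i * w i) fun i => a i * x i) =
          horR ws ps fun w => (fun y => G fun i => a i * y i) fun i => z i * w i := fun a z =>
      congrArg _ (funext fun x => congrArg G (funext fun i => by ring))
    have hP : (0 : ℝ) ≤ (P : ℝ) / unitP := div_nonneg (Nat.cast_nonneg P) unitP_pos.le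
    refine ⟨fun x y hx hy => ?_, fun k hk x hx => ?_⟩
    · simp only [horR, mul_one]
      rw [lsum_congr fun a _ => hc a (x + y), lsum_congr fun a _ => hc a x,
        lsum_congr fun a _ => hc a y, add_add_add_comm, ← mul_add, ← lsum_add]
      exact add_le_add (mul_le_mul_of_nonneg_left (hG.add x y hx hy) hP)
        (lsum_le fun a ha => (ih (hG.comp_mul (hws a ha))).add x y hx hy)
    · simp only [horR, mul_one]
      rw [lsum_congr fun a _ => hc a (k • x), lsum_congr fun a _ => hc a x, hG.smul k hk x hx,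
        mul_add, ← lsum_mul_left]
      exact congrArg₂ (· + ·) (by ring)
        (lsum_congr fun a ha => (ih (hG.comp_mul (hws a ha))).smul k hk x hx)

/-- Truncated mixtures of the combinations are bounded by the truncated generating function. -/
lemma fib_horR (hd : 0 ≤ d) (hws : ∀ a ∈ ws, NN a)
    (hup : ∀ g, SubP g → edge h h' d n g ≤ lsum ws g) :
    ∀ (ps : List ℕ) (G : (Fin 3 → ℝ) → ℝ), SubP G →
      ∑ k ∈ range ps.length, ((ps.getD k 0 : ℕ) : ℝ) / unitP * fib lam h h' d n k G ≤
        horR ws ps G := by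
  intro ps
  induction ps with
  | nil => intro G _; simp [horR]
  | cons P ps ih =>
    intro G hG
    obtain ⟨C, hC⟩ := subP_bound hG
    simp only [List.length_cons, sum_range_succ', List.getD_cons_succ, List.getD_cons_zero,
      fib_zero hd, horR]
    rw [add_comm]
    refine add_le_add le_rfl ?_
    have hb : ∀ k t, |((ps.getD k 0 : ℕ) : ℝ) / unitP *
        fib lam h h' d n k (slot ((treeE lam h h' n t).chanE lam h h') G)| ≤
          |((ps.getD k 0 : ℕ) : ℝ) / unitP| * (C * 3) := fun k t => by
      rw [abs_mul]; exact mul_le_mul_of_nonneg_left (fib_slot_abs_le hd hC _) (abs_nonneg _)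
    simp only [fib_cons hd hG, ← ev_mul_left]
    rw [← ev_sum (prob1_gw hd n) (range ps.length) hb]
    have hT := horR_subP hws ps hG
    obtain ⟨C', hC'⟩ := subP_bound hT
    have key : ∀ t, horR ws ps (slot ((treeE lam h h' n t).chanE lam h h') G) =
        (treeE lam h h' n t).S fun z => horR ws ps fun w => G fun i => chanV lam z i * w i := by
      intro t
      rw [← Ens.S_chanE _ lam h h' fun z => horR ws ps fun w => G fun i => z i * w i]
      exact horR_sum univ ps fun z w => G fun i => ((treeE lam h h' n t).chanE lam h h').L z i * w i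
    refine le_trans (b := edge h h' d n fun z => horR ws ps fun w => G fun i => z i * w i) ?_ ?_
    · refine ev_le_ev (prob1_gw hd n) (fun t => (abs_sum_le_sum_abs _ _).trans
        (sum_le_sum fun k _ => hb k t)) (B' := C' * 3) (fun t => ?_) fun t => ?_
      · show |(treeE lam h h' n t).S fun z => horR ws ps fun w => G fun i => chanV lam z i * w i| ≤ _
        rw [← Ens.S_chanE _ lam h h' fun z => horR ws ps fun w => G fun i => z i * w i]
        exact ens_bound hC' _
      · exact (ih _ (subP_slot hG _)).trans (le_of_eq (key t))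
    · exact hup _ hT

/-- The offspring probabilities may be lowered and cut off for nonpositive test functions. -/
theorem root_le_horR (hd : 0 ≤ d) (hws : ∀ a ∈ ws, NN a)
    (hup : ∀ g, SubP g → edge h h' d n g ≤ lsum ws g) (ps : List ℕ)
    (hps : ∀ k < ps.length, ((ps.getD k 0 : ℕ) : ℝ) / unitP ≤ GW.pois d k)
    {G : (Fin 3 → ℝ) → ℝ} (hG : SubP G) (hneg : ∀ x, NN x → G x ≤ 0) :
    root h h' d (n + 1) G ≤ horR ws ps G := by
  obtain ⟨C, hC⟩ := subP_bound hG
  have hP : Prob1 (GW.pois d) := ⟨GW.pois_nonneg hd, GW.hasSum_pois d⟩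
  have hfib : ∀ k, fib lam h h' d n k G ≤ 0 := fun k => by
    refine tsum_nonpos fun x => mul_nonpos_of_nonneg_of_nonpos ((prob1_kidW hd n k).nonneg x) ?_
    exact sum_nonpos fun z _ => hneg _ ((kids lam h h' n k x).nonneg z)
  rw [root_succ hd hG]
  refine le_trans ?_ (fib_horR hd hws hup ps G hG)
  refine le_trans (b := ∑ k ∈ range ps.length, GW.pois d k * fib lam h h' d n k G) ?_
    (sum_le_sum fun k hk =>
      mul_le_mul_of_nonpos_right (hps k (mem_range.1 hk)) (hfib k))
  have hs := ev_summable hP fun k => fib_abs_le (h := h) (h' := h') (n := n) (k := k) hd hC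
  have := hs.neg.sum_le_tsum (range ps.length) fun k _ =>
    neg_nonneg.2 (mul_nonpos_of_nonneg_of_nonpos (GW.pois_nonneg hd k) (hfib k))
  rw [tsum_neg, sum_neg_distrib, neg_le_neg_iff] at this
  exact this

/-- Lower bounds of Poisson probabilities from an upper bound `u / v` of `exp (a / b)`. -/
lemma pois_lower {a b u v : ℕ} (hb : 0 < b) (hv : 0 < v) (hu : Real.exp ((a : ℝ) / b) ≤ (u : ℝ) / v)
    {P k : ℕ} (h : P * (Nat.factorial k * b ^ k * u) ≤ 2 ^ bitsP * a ^ k * v) :
    (P : ℝ) / unitP ≤ GW.pois ((a : ℝ) / b) k := by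
  have hb' : (0 : ℝ) < b := Nat.cast_pos.2 hb
  have hv' : (0 : ℝ) < v := Nat.cast_pos.2 hv
  have hk : (0 : ℝ) < Nat.factorial k := Nat.cast_pos.2 (Nat.factorial_pos k)
  have hu' : (0 : ℝ) < u := by
    have := (Real.exp_pos ((a : ℝ) / b)).trans_le hu
    exact (div_pos_iff_of_pos_right hv').1 this
  have h' := (Nat.cast_le (α := ℝ)).2 h
  push_cast at h'
  rw [GW.pois, Real.exp_neg]
  refine le_trans ?_ (div_le_div_of_nonneg_right
    (mul_le_mul_of_nonneg_right (inv_anti₀ (Real.exp_pos _) hu) (by positivity)) hk.le)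
  rw [div_pow, inv_div, div_mul_div_comm, div_div, div_le_div_iff₀ unitP_pos (by positivity)]
  have e : (unitP : ℝ) = 2 ^ bitsP := rfl
  rw [e]
  linarith

end Vale.Agent.P154.NegTrans
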