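import Vale.Agent.P154.NegTrans.Table
import Vale.Agent.P154.NegTrans.Trunc
import Vale.Agent.P154.D4.Step

/-!
One generation of the computation is sound.
-/

namespace Vale.Agent.P154.NegTrans

open Finset D4

variable {lam d : ℝ} {h : -1 ≤ lam * (((3 : ℕ) : ℝ) - 1)} {h' : lam ≤ 1} {n : ℕ}

/-- The upper bound on the averaged edge observation. -/
def Up (h : -1 ≤ lam * (((3 : ℕ) : ℝ) - 1)) (h' : lam ≤ 1) (d : ℝ) (n : ℕ) (G : D4.Lat)
    (s : State) : Prop :=
  G.valid s = true ∧ ∀ g, Test g → edge h h' d n g ≤ lsum (family G s) g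

lemma edge_abs_le (hd : 0 ≤ d) {g : (Fin 3 → ℝ) → ℝ} {C : ℝ}
    (hC : ∀ x, NN x → |g x| ≤ C * (x 0 + x 1 + x 2)) : |edge h h' d n g| ≤ C * 3 :=
  ev_abs_le (Tr.prob1_gw hd n) fun t => by
    rw [← Tr.Ens.S_chanE _ lam h h']; exact ens_bound hC _

/-- An upper bound for test functions is one for all sublinear functions. -/
theorem Up.below {G : D4.Lat} (hG : G.good = true) {s : State} (hu : Up h h' d n G s)
    (hd : 0 ≤ d) {g : (Fin 3 → ℝ) → ℝ} (hg : SubP g) :
    edge h h' d n g ≤ lsum (family G s) g := by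
  obtain ⟨C, hC⟩ := subP_bound hg
  set S := symG g with hS
  obtain ⟨C', hC'⟩ := subP_bound (symG_subP hg)
  set k := -S v100
  let g' : (Fin 3 → ℝ) → ℝ := fun x => S x + k * (x 0 + x 1 + x 2)
  have hT : Test g' := by
    refine ⟨⟨fun x y hx hy => ?_, fun c hc x hx => ?_⟩, fun σ x => ?_, ?_⟩
    · have := (symG_subP hg).add x y hx hy
      simp only [g', Pi.add_apply, S]
      linarith
    · simp only [g', S, (symG_subP hg).smul c hc x hx, Pi.smul_apply, smul_eq_mul]
      ring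
    · simp only [g', S, symG_symm g σ x]
      have := Equiv.sum_comp σ x
      simp only [Fin.sum_univ_three] at this
      rw [this]
    · simp [g', k, v100]
  have h6 : (Fintype.card (Equiv.Perm (Fin 3)) : ℝ) = 6 := by
    rw [Fintype.card_perm, Fintype.card_fin]; norm_num [Nat.factorial]
  have eS : edge h h' d n S = edge h h' d n g := by
    simp only [edge, root]
    refine congrArg _ (funext fun t => ?_)
    rw [← Tr.Ens.S_chanE _ lam h h', ← Tr.Ens.S_chanE _ lam h h']
    simp only [S, symG, Tr.Ens.S, ← sum_div]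
    rw [Finset.sum_comm]
    simp only [((Tr.treeE lam h h' n t).chanE lam h h').symm _ g, sum_const, card_univ,
      nsmul_eq_mul, h6]
    ring
  have eL : lsum (family G s) S = lsum (family G s) g := by
    show lsum (family G s) (fun x => (∑ σ : Equiv.Perm (Fin 3), g fun i => x (σ i)) / 6) = _
    simp only [div_eq_mul_inv, lsum_mul_right]
    rw [← sum_lsum_comm]
    simp only [symL_family G s _ g, sum_const, card_univ, nsmul_eq_mul, h6]
    ring
  have h1 : edge h h' d n g' = edge h h' d n S + k * 3 := by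
    simp only [edge, root, g']
    have he : ∀ t, ((Tr.treeE lam h h' n t).S fun w => S (Tr.chanV lam w) +
        k * (Tr.chanV lam w 0 + Tr.chanV lam w 1 + Tr.chanV lam w 2)) =
        ((Tr.treeE lam h h' n t).S fun w => S (Tr.chanV lam w)) + k * 3 := fun t => by
      rw [← ens_sum ((Tr.treeE lam h h' n t).chanE lam h h'), Tr.Ens.S_chanE]
      simp only [Tr.Ens.S, sum_add_distrib, ← mul_sum]
    simp only [he]
    refine ev_add_const (Tr.prob1_gw hd n) (B := C' * 3) (fun t => ?_) _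
    rw [← Tr.Ens.S_chanE _ lam h h']
    exact ens_bound hC' _
  have h2 : lsum (family G s) g' = lsum (family G s) S + k * 3 := by
    simp only [g', lsum_add, lsum_mul_left, family_col hG]
    ring
  have := hu.2 g' hT
  rw [h1, h2, eS, eL] at this
  linarith

/-- No information at all: the state with all mass at certainty. -/
theorem up_zero {G : D4.Lat} (hG : G.good = true) (hd : 0 ≤ d)
    (hv : G.valid ⟨List.replicate G.reps.length 0, 0⟩ = true) :
    Up h h' d 0 G ⟨List.replicate G.reps.length 0, 0⟩ := by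
  refine ⟨hv, fun g hg => ?_⟩
  rw [family_test _ (restW_nonneg hG hv) hg]
  have hz : ∀ (m : ℕ) (l : List (ℕ × ℕ × ℕ)),
      lsum (((List.replicate m 0).zip l).flatMap fun we => (six we.2).map (Prod.mk we.1))
        (fun a => g (fV G a)) = 0 := by
    intro m l
    refine (lsum_congr (g := fun _ => (0 : ℝ)) fun a ha => ?_).trans (by rw [lsum_const, mul_zero])
    simp only [List.mem_flatMap, List.mem_map] at ha
    obtain ⟨we, hwe, e, -, rfl⟩ := ha
    have h0 : we.1 = 0 := List.eq_of_mem_replicate (List.of_mem_zip (a := we.1) (b := we.2) hwe).1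
    have : fV G (we.1, e) = fun _ => 0 := by funext i; simp [fV, h0]
    rw [this, test_zero_fun hg]
  rw [fvecs, lsum_map, base, hz]
  refine le_trans ?_ (le_of_eq (show (0 : ℝ) = _ by simp [State.e]))
  refine tsum_nonpos fun t => mul_nonpos_of_nonneg_of_nonpos ((Tr.prob1_gw hd 0).nonneg t) ?_
  exact sum_nonpos fun x _ => hg.nonpos (chanV_nn h h' ((Tr.treeE lam h h' 0 t).nonneg x))

lemma chan_chI {ln lq : ℕ} (hq : 0 < lq) (h2 : 2 * ln ≤ lq) {den : ℕ} (hden : 0 < den)
    (x y z : ℕ) (i : Fin 3) :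
    Tr.chanV (-((ln : ℝ) / lq)) ![(x : ℝ) / den, (y : ℝ) / den, (z : ℝ) / den] i =
      (chI ln lq x y z i : ℝ) / ((3 * lq * den : ℕ) : ℝ) := by
  have hq' : (lq : ℝ) ≠ 0 := (Nat.cast_pos.2 hq).ne'
  have hd' : (den : ℝ) ≠ 0 := (Nat.cast_pos.2 hden).ne'
  have hle : 3 * ln * (if i = 0 then x else if i = 1 then y else z) ≤ (lq + ln) * (x + y + z) := by
    refine Nat.mul_le_mul (by omega) ?_
    split_ifs <;> omega
  rw [chI, Nat.cast_sub hle]
  fin_cases i <;> simp [Tr.chanV, Tr.mean, Fin.sum_univ_three] <;> field_simp <;> ring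

lemma symm_chan {g : (Fin 3 → ℝ) → ℝ} (hg : Test g) (lam : ℝ) (σ : Equiv.Perm (Fin 3))
    (x : Fin 3 → ℝ) : g (Tr.chanV lam fun i => x (σ i)) = g (Tr.chanV lam x) := by
  rw [← hg.symm σ (Tr.chanV lam x)]
  refine congrArg g (funext fun i => ?_)
  simp only [Tr.chanV, Tr.mean, Equiv.sum_comp σ x]

variable {c : Cfg}

lemma sec_point (hc : c.src.good = true) (hq : 0 < c.lq) (h2 : 2 * c.ln ≤ c.lq)
    {g : (Fin 3 → ℝ) → ℝ} (hg : Test g) {A B : ℕ} (hA : A ≤ c.C) (hB : B ≤ c.C) :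
    g (Tr.chanV (-((c.ln : ℝ) / c.lq)) (c.pt2 c.C (A * c.w + B))) =
      g fun k => (c.secV A B k : ℝ) / ((3 * c.lq * c.src.p ^ c.C : ℕ) : ℝ) := by
  obtain ⟨e1, e2⟩ := div_mod_row c.w A B (by simp [Cfg.w]; omega)
  have hp : 0 < c.src.p := by exact_mod_cast (D4.Lat.good.p_pos hc).1
  have hqq := (D4.Lat.good.p_pos hc).2
  have ht := t_pos hc
  have hk : ∀ m, m ≤ c.C → c.src.t ^ ((m : ℤ) - c.C) =
      ((c.src.p ^ m * c.src.q ^ (c.C - m) : ℕ) : ℝ) / ((c.src.p ^ c.C : ℕ) : ℝ) := by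
    intro m hm
    rw [zpow_sub₀ ht.ne', zpow_natCast, zpow_natCast, D4.Lat.t, div_pow, div_pow, Nat.cast_mul,
      Nat.cast_pow, Nat.cast_pow, Nat.cast_pow, pow_sub₀ _ hqq.ne' hm]
    have := (D4.Lat.good.p_pos hc).1.ne'
    field_simp
  rw [← symm_chan hg _ (Equiv.swap 0 2)]
  refine congrArg g (funext fun i => ?_)
  rw [Cfg.secV, ← chan_chI hq h2 (pow_pos hp c.C)]
  refine congrFun (congrArg _ (funext fun j => ?_)) i
  have hp0 : (c.src.p : ℝ) ^ c.C ≠ 0 := pow_ne_zero _ (D4.Lat.good.p_pos hc).1.ne'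
  fin_cases j <;> simp [Cfg.pt2, e1, e2, Equiv.swap_apply_def, hk A hA, hk B hB, hp0]

lemma fac_point (hc : c.src.good = true) (hq : 0 < c.lq) (h2 : 2 * c.ln ≤ c.lq)
    {g : (Fin 3 → ℝ) → ℝ} (hg : Test g) {s : ℕ} (hs : s ≤ 2 * c.C) :
    g (Tr.chanV (-((c.ln : ℝ) / c.lq)) (c.pt1 c.C s)) =
      g fun k => (c.facV s k : ℝ) / ((3 * c.lq * (c.src.p ^ c.C * c.src.q ^ c.C) : ℕ) : ℝ) := by
  have hp := (D4.Lat.good.p_pos hc).1
  have hqq := (D4.Lat.good.p_pos hc).2
  have ht := t_pos hc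
  set U := c.src.p ^ c.C * c.src.q ^ c.C with hU
  set Y := c.src.p ^ s * c.src.q ^ (2 * c.C - s) with hY
  have hU0 : (0 : ℝ) < (U : ℝ) := by rw [hU]; push_cast; positivity
  have hUn : 0 < U := Nat.cast_pos.1 hU0
  have hk : c.src.t ^ ((s : ℤ) - c.C) = (Y : ℝ) / (U : ℝ) := by
    rw [zpow_sub₀ ht.ne', zpow_natCast, zpow_natCast, D4.Lat.t, div_pow, div_pow, hY, hU,
      Nat.cast_mul, Nat.cast_mul, Nat.cast_pow, Nat.cast_pow, Nat.cast_pow, Nat.cast_pow,
      pow_sub₀ _ hqq.ne' hs, two_mul, pow_add]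
    field_simp
  have key : ∀ i, (c.facV s i : ℝ) / ((3 * c.lq * U : ℕ) : ℝ) = Tr.chanV (-((c.ln : ℝ) / c.lq))
      ![((0 : ℕ) : ℝ) / U, ((min U Y : ℕ) : ℝ) / U, ((max U Y : ℕ) : ℝ) / U] i := fun i => by
    rw [chan_chI hq h2 hUn]; rfl
  rw [funext key]
  rcases le_total U Y with hle | hle
  · rw [← symm_chan hg _ (Equiv.swap 0 2) (c.pt1 c.C s)]
    refine congrArg g (congrArg _ (funext fun i => ?_))
    fin_cases i <;> simp [Cfg.pt1, Equiv.swap_apply_def, hk, max_eq_right hle, min_eq_left hle,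
      hU0.ne']
  · rw [← symm_chan hg _ (Equiv.swap 0 1 * Equiv.swap 0 2) (c.pt1 c.C s)]
    refine congrArg g (congrArg _ (funext fun i => ?_))
    fin_cases i <;> simp [Cfg.pt1, Equiv.swap_apply_def, hk, max_eq_left hle, min_eq_right hle,
      hU0.ne']

/-- One generation. -/
theorem step_sound (c : Cfg) (dst : D4.Lat) (hok : c.ok dst = true)
    (hlam : lam = -((c.ln : ℝ) / c.lq)) (hd : 0 ≤ d)
    (hps : ∀ k < c.pw.length, ((c.pw.getD k 0 : ℕ) : ℝ) / unitP ≤ GW.pois d k) {s s' : State}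
    (hstep : c.step s = (s', true)) (hv' : dst.valid s' = true) (hu : Up h h' d n c.src s) :
    Up h h' d (n + 1) dst s' := by
  simp only [Cfg.ok, Bool.and_eq_true, decide_eq_true_eq] at hok
  obtain ⟨⟨⟨⟨⟨hG, hD⟩, hpq, hK, hlq, hln, hn, htl, ht1l⟩, hrows⟩, hface⟩, htab0⟩ := hok
  refine ⟨hv', fun g hg => ?_⟩
  set G := c.src with hGdef
  simp only [Cfg.step, Prod.mk.injEq, Bool.and_eq_true, decide_eq_true_eq] at hstep
  obtain ⟨hs', ⟨⟨⟨hb2, hb1⟩, hbK⟩, hv⟩, hcol⟩ := hstep
  rw [← hGdef] at hv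
  rw [packT_eq] at hs' hb2 hbK hcol
  have hu0 := unitP_pos
  have hbu : ((2 : ℝ) ^ bitsW) = unitP := rfl
  have hp0 : 0 < c.src.p := by exact_mod_cast (D4.Lat.good.p_pos hG).1
  have hq0 : 0 < c.src.q := by exact_mod_cast (D4.Lat.good.p_pos hG).2
  set κ := g (Tr.chanV lam v100) with hκ
  have hκ0 : κ ≤ 0 := hg.nonpos (chanV_nn h h' fun i => by fin_cases i <;> simp [v100])
  set H : (Fin 3 → ℝ) → ℝ := fun x => g (Tr.chanV lam x) + -κ * (x 0 + x 1 + x 2) with hH
  have hHt : Test H := by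
    refine ⟨⟨fun x y hx hy => ?_, fun k hk x hx => ?_⟩, fun σ x => ?_, ?_⟩
    · have := (subP_chan hg.subP h h').add x y hx hy
      simp only [H, Pi.add_apply] at this ⊢
      linarith
    · have := (subP_chan hg.subP h h').smul k hk x hx
      simp only [H, Pi.smul_apply, smul_eq_mul] at this ⊢
      linear_combination this
    · simp only [H, symm_chan hg lam σ x]
      have := Equiv.sum_comp σ x
      simp only [Fin.sum_univ_three] at this
      rw [this]
    · simp [H, κ, v100]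
  obtain ⟨C, hC⟩ := subP_bound hHt.subP
  -- from the edge to the root, and to the truncated generating function
  have h0 : edge h h' d (n + 1) g ≤
      (horR (fvecs G s.W) c.pw (sec H) +
        dif (fvecs G s.W) ![s.e, s.e, 0] c.pw (fun x => sec H (proj x))) + κ * 3 := by
    refine le_trans ?_ (add_le_add ((root_le_horR hd (family_nn hG hv)
      (fun f hf => hu.below hG hd hf) c.pw hps hHt.subP fun x hx => hHt.nonpos hx).trans
      (horR_split hHt hG hv c.pw)) le_rfl)
    refine le_of_eq ?_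
    have he : ∀ t, ((Tr.treeE lam h h' (n + 1) t).S fun w => g (Tr.chanV lam w)) =
        (Tr.treeE lam h h' (n + 1) t).S H + κ * 3 := fun t => by
      rw [← ens_sum (Tr.treeE lam h h' (n + 1) t)]
      simp only [H, Tr.Ens.S, mul_sum, ← sum_add_distrib]
      exact sum_congr rfl fun x _ => by ring
    show Tr.ev _ _ = _
    rw [funext he]
    exact ev_add_const (Tr.prob1_gw hd _) (fun t => ens_bound hC _) _
  -- slots
  set F2 := c.atoms Cfg.atom2 s.W
  set F1 := c.atoms Cfg.atom1 s.W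
  set r2 := horner c.K (c.K * (c.src.L * c.w + c.src.L) + bitsW) c.mask2 (c.C * c.w + c.C)
    (pack c.K F2) (mass F2) c.pw with hr2
  set r1 := hornerFace c.K (c.K * c.src.L + bitsW) c.mask1 c.C (pack c.K F1) (mass F1) c.src.L
    s.E c.pw with hr1
  obtain ⟨l, hl1, -, hl3, -, hl5⟩ := horner_sound hG hK s.W c.pw hb2
  obtain ⟨l1, l2, -, hm1, -, -, hm2, -, hf⟩ := hornerFace_sound hG hK s.W s.E c.pw hb1
  have hsec := hl5 (sec H) (sec_neg hHt)
  have hfac := (hf (sec H) (sec_neg hHt)).2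
  set T2 := ∑ A ∈ range (c.C + 1), ∑ i ∈ range (c.C + 1 - A),
    ((mult c.C A (A + i) * digit c.K r2.1 (A * c.w + (A + i)) : ℕ) : ℝ) / unitP *
      H (c.pt2 c.C (A * c.w + (A + i))) with hT2
  have hsec' : horR (fvecs G s.W) c.pw (sec H) ≤ T2 := by
    refine hsec.trans ?_
    set S := (range (c.C + 1)).sigma fun A => range (c.C + 1 - A)
    set f : ℕ → ℝ := fun u => sec H (c.pt2 c.C u) / unitP
    have hsl : ∀ A ≤ c.C, ∀ i ≤ c.C - A, ∀ A' ≤ c.C, ∀ i' ≤ c.C - A',
        A * c.w + (A + i) = A' * c.w + (A' + i') → A = A' ∧ i = i' := by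
      intro A hA i hi A' hA' i' hi' he
      obtain ⟨e1, e2⟩ := div_mod_row c.w A (A + i) (by simp [Cfg.w]; omega)
      obtain ⟨e3, e4⟩ := div_mod_row c.w A' (A' + i') (by simp [Cfg.w]; omega)
      rw [he] at e1 e2
      omega
    have h1 : lsum l (fun a => (a.2 : ℝ) / unitP * sec H (c.pt2 c.C a.1)) ≤
        ∑ u ∈ S.image (fun p => p.1 * c.w + (p.1 + p.2)), (slotSum l u : ℝ) * f u := by
      rw [sum_slotSum]
      refine lsum_le fun a _ => ?_
      have : (a.2 : ℝ) / unitP * sec H (c.pt2 c.C a.1) = (a.2 : ℝ) * f a.1 := by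
        simp only [f]; ring
      rw [this]
      split_ifs
      · exact le_rfl
      · exact mul_nonpos_of_nonneg_of_nonpos (Nat.cast_nonneg _)
          (div_nonpos_of_nonpos_of_nonneg ((sec_neg hHt).nonpos _ (pt2_nn hG _ _)) hu0.le)
    refine h1.trans (le_of_eq ?_)
    rw [sum_image fun p hp p' hp' he => ?_, sum_sigma]
    rotate_left
    · simp only [coe_sigma, Set.mem_sigma_iff, coe_range, Set.mem_Iio, S] at hp hp'
      obtain ⟨r1, r2⟩ := hsl p.1 (by omega) p.2 (by omega) p'.1 (by omega) p'.2 (by omega) he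
      exact Sigma.ext r1 (heq_of_eq r2)
    refine sum_congr rfl fun A hA => sum_congr rfl fun i hi => ?_
    have hA' := mem_range.1 hA
    have hi' := mem_range.1 hi
    simp only [f, sec]
    rw [secM_pt2 hG hpq (Nat.le_add_right A i) (by omega), hl1, digit_pack hl3, Nat.cast_mul]
    ring
  set T1 := ∑ i ∈ range (2 * c.C + 1), ((3 * digit c.K r1.2.1.1 i : ℕ) : ℝ) / unitP *
    H (c.pt1 c.C i) with hT1
  have hfac' : dif (fvecs G s.W) ![s.e, s.e, 0] c.pw (fun x => sec H (proj x)) ≤ T1 := by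
    refine hfac.trans ?_
    set f : ℕ → ℝ := fun u => sec H (c.pt1 c.C u) / unitP
    have h1 : lsum l2 (fun a => (a.2 : ℝ) / unitP * sec H (c.pt1 c.C a.1)) ≤
        ∑ u ∈ range (2 * c.C + 1), (slotSum l2 u : ℝ) * f u := by
      rw [sum_slotSum]
      refine lsum_le fun a _ => ?_
      have : (a.2 : ℝ) / unitP * sec H (c.pt1 c.C a.1) = (a.2 : ℝ) * f a.1 := by
        simp only [f]; ring
      rw [this]
      split_ifs
      · exact le_rfl
      · exact mul_nonpos_of_nonneg_of_nonpos (Nat.cast_nonneg _)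
          (div_nonpos_of_nonpos_of_nonneg ((sec_neg hHt).nonpos _ (pt1_nn hG _ _)) hu0.le)
    refine h1.trans (le_of_eq (sum_congr rfl fun i _ => ?_))
    simp only [f, sec]
    rw [secM_pt1 hG, hm1, digit_pack hm2, Nat.cast_mul]
    push_cast
    ring
  -- the mass
  set col := c.allCol r2.1 0 (c.C + 1) + c.faceCol r1.2.1.1 0 (2 * c.C + 1) with hcolD
  set z := (3 * 2 ^ (2 * bitsW) - col) / 2 ^ bitsW with hz
  set P2 := ∑ A ∈ range (c.C + 1), ∑ i ∈ range (c.C + 1 - A),
    ((mult c.C A (A + i) * digit c.K r2.1 (A * c.w + (A + i)) : ℕ) : ℝ) *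
      g (fun k => (c.secV A (A + i) k : ℝ) / ((3 * c.lq * c.src.p ^ c.C : ℕ) : ℝ)) with hP2
  set P1 := ∑ i ∈ range (2 * c.C + 1), ((3 * digit c.K r1.2.1.1 i : ℕ) : ℝ) *
    g (fun k => (c.facV i k : ℝ) /
      ((3 * c.lq * (c.src.p ^ c.C * c.src.q ^ c.C) : ℕ) : ℝ)) with hP1
  have hmass : T2 + T1 + κ * 3 ≤ (P2 + P1 + (z : ℝ) * κ) / unitP := by
    have e2 : T2 ≤ P2 / unitP - κ / unitP / unitP * (c.allCol r2.1 0 (c.C + 1) : ℝ) := by
      rw [allCol_eq _ _ _ (by omega), hT2, hP2]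
      simp only [Nat.cast_sum, sum_div, mul_sum, ← sum_sub_distrib, Nat.zero_add]
      refine sum_le_sum fun A hA => sum_le_sum fun i hi => ?_
      have hA' := mem_range.1 hA
      have hi' := mem_range.1 hi
      have hB : A + i ≤ c.C := by omega
      obtain ⟨e1, e2⟩ := div_mod_row c.w A (A + i) (by simp [Cfg.w]; omega)
      simp only [H]
      rw [hlam, sec_point hG hlq hln hg (by omega) hB]
      have hs : c.pt2 c.C (A * c.w + (A + i)) 0 + c.pt2 c.C (A * c.w + (A + i)) 1 +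
          c.pt2 c.C (A * c.w + (A + i)) 2 ≤
          ((c.up (c.C - A) + c.up (c.C - (A + i)) + 2 ^ bitsW : ℕ) : ℝ) / unitP := by
        have a1 := up_le hG (c.C - A)
        have a2 := up_le hG (c.C - (A + i))
        rw [show -((c.C - A : ℕ) : ℤ) = (A : ℤ) - c.C by omega] at a1
        rw [show -((c.C - (A + i) : ℕ) : ℤ) = ((A + i : ℕ) : ℤ) - c.C by omega] at a2
        simp only [Cfg.pt2, e1, e2]
        push_cast [hbu, add_div, div_self hu0.ne'] at a2 ⊢
        simp
        linarith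
      push_cast [hbu] at hs ⊢
      have := mul_le_mul_of_nonneg_left hs (mul_nonneg
        (show (0 : ℝ) ≤ (mult c.C A (A + i) : ℝ) * digit c.K r2.1 (A * c.w + (A + i)) / unitP by
          positivity) (neg_nonneg.2 hκ0))
      refine (le_of_eq (mul_add _ _ _)).trans
        ((add_le_add le_rfl ((le_of_eq (by ring)).trans this)).trans (le_of_eq ?_))
      ring
    have e1 : T1 ≤ P1 / unitP - κ / unitP / unitP * (c.faceCol r1.2.1.1 0 (2 * c.C + 1) : ℝ) := by
      rw [faceCol_eq, hT1, hP1]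
      simp only [Nat.cast_sum, sum_div, mul_sum, ← sum_sub_distrib, Nat.zero_add]
      refine sum_le_sum fun i hi => ?_
      simp only [H]
      rw [hlam, fac_point hG hlq hln hg (by have := mem_range.1 hi; omega)]
      have hs : c.pt1 c.C i 0 + c.pt1 c.C i 1 + c.pt1 c.C i 2 ≤ (c.upFace i : ℝ) / unitP := by
        simpa [Cfg.pt1] using upFace_ge hG i
      push_cast
      have := mul_le_mul_of_nonneg_left hs (mul_nonneg
        (show (0 : ℝ) ≤ 3 * (digit c.K r1.2.1.1 i : ℝ) / unitP by positivity) (neg_nonneg.2 hκ0))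
      refine (le_of_eq (mul_add _ _ _)).trans
        ((add_le_add le_rfl ((le_of_eq (by ring)).trans this)).trans (le_of_eq ?_))
      ring
    have hzz : (z : ℝ) * unitP + col ≤ 3 * unitP * unitP := by
      have h0 : z * 2 ^ bitsW + col ≤ 3 * 2 ^ (2 * bitsW) := by
        have := Nat.div_mul_le_self (3 * 2 ^ (2 * bitsW) - col) (2 ^ bitsW)
        rw [← hz] at this
        omega
      have h1 := (Nat.cast_le (α := ℝ)).2 h0
      push_cast [two_mul, pow_add, hbu] at h1
      linarith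
    have key := mul_le_mul_of_nonneg_left hzz (div_nonneg (neg_nonneg.2 hκ0) (mul_nonneg hu0.le hu0.le))
    have k1 : -κ / (unitP * unitP) * (3 * unitP * unitP) = -κ * 3 := by field_simp
    have k2 : -κ / (unitP * unitP) * ((z : ℝ) * unitP + col) =
        -(z * κ / unitP) + -(κ / unitP / unitP * col) := by field_simp; ring
    rw [k1, k2, hcolD, Nat.cast_add, mul_add] at key
    rw [add_div, add_div]
    linarith
  -- the table
  have hden1 : 0 < 3 * c.lq * c.src.p ^ c.C := by positivity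
  have hden2 : 0 < 3 * c.lq * (c.src.p ^ c.C * c.src.q ^ c.C) := by positivity
  have bu := allRows_bound' hD hden1 c.K' r2.1 hg 0 c.tab hrows
  have bv := faceSum_bound' hD hden2 c.facV c.K c.K' r1.2.1.1 hg 0 c.tab1 hface
  have bz := Bound.entry hD c.K' z (by positivity : 0 < 3 * c.lq) htab0 hg
  have hκV : g (fun k => (c.unitV k : ℝ) / ((3 * c.lq : ℕ) : ℝ)) = κ := by
    have e : ∀ k, (c.unitV k : ℝ) / ((3 * c.lq : ℕ) : ℝ) =
        Tr.chanV (-((c.ln : ℝ) / c.lq))
          ![((0 : ℕ) : ℝ) / ((1 : ℕ) : ℝ), ((0 : ℕ) : ℝ) / ((1 : ℕ) : ℝ),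
            ((1 : ℕ) : ℝ) / ((1 : ℕ) : ℝ)] k := fun k => by
      rw [chan_chI hlq hln one_pos, mul_one]; rfl
    rw [funext e, ← hlam, hκ, ← symm_chan hg lam (Equiv.swap 0 2) v100]
    refine congrArg g (congrArg _ (funext fun i => ?_))
    fin_cases i <;> simp [v100, Equiv.swap_apply_def]
  obtain ⟨a, ha1, ha2, ha3⟩ := (bu.add bv).add bz
  simp only [htl, ht1l, Nat.zero_add] at ha3
  rw [← hP2, ← hP1, hκV] at ha3
  set N := dst.reps.length with hN
  rw [hn] at hs' hbK
  dsimp only at ha1 ha2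
  have hak : ∀ k, (if k < N + 1 then a k else 0) < 2 ^ c.K' := fun k => by
    split_ifs with hk
    · refine lt_of_le_of_lt ?_ hbK
      rw [ha2]
      exact single_le_sum (fun j _ => Nat.zero_le (a j)) (mem_range.2 hk)
    · positivity
  set acc := (allRows c.K c.K' N c.C c.w r2.1 0 c.tab).1 +
    (faceSum c.K c.K' N r1.2.1.1 0 c.tab1).1 + ((Entry.ofNat c.tab0).pack c.K' N z).1 with hacc
  have hacc' : acc = ∑ k ∈ range (N + 1), (if k < N + 1 then a k else 0) * 2 ^ (c.K' * k) := by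
    rw [ha1]
    exact sum_congr rfl fun k hk => by rw [if_pos (mem_range.1 hk)]
  have hWl : s'.W.length = N := by rw [← hs']; exact unpack_length _ _ _ _
  have hW : ∀ k < N, s'.W.getD k 0 = a k / (6 * 2 ^ bitsT) := fun k hk => by
    rw [← hs']
    show (unpackAcc _ _ acc N).getD k 0 = _
    rw [unpack_getD _ _ _ _ _ hk, hacc', digit_sum _ _ hak k, if_pos (by omega),
      if_pos (by omega)]
  have hE : s'.E = a N / (3 * 2 ^ bitsT) := by
    rw [← hs']
    show (acc >>> (c.K' * N)) / _ = _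
    rw [hacc', shift_sum hak, if_pos (by omega)]
  have hfam : 1 / unitP * (1 / 2 ^ bitsT * ∑ k ∈ range (N + 1), (a k : ℝ) * gv dst g N k) ≤
      lsum (family dst s') g := by
    rw [family_test s' (restW_nonneg hD hv') hg, fvecs_test hD hWl hg, sum_range_succ, mul_add,
      mul_add, mul_sum, mul_sum]
    refine add_le_add (sum_le_sum fun k hk => ?_) ?_
    · have hk' := mem_range.1 hk
      have hgk : gv dst g N k ≤ 0 := by
        rw [gv, if_neg hk'.ne]; exact hg.nonpos (vec_nn hD _)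
      rw [← mul_assoc, ← mul_assoc]
      refine mul_le_mul_of_nonpos_right ?_ hgk
      rw [hW k hk', one_div_mul_one_div, div_mul_eq_mul_div, one_mul,
        div_le_div_iff₀ hu0 (by positivity)]
      have h1 := (Nat.cast_le (α := ℝ)).2 (Nat.div_mul_le_self (a k) (6 * 2 ^ bitsT))
      push_cast at h1
      nlinarith
    · rw [gv, if_pos rfl, State.e, hE]
      have hg0 : g v110 ≤ 0 := hg.nonpos fun i => by fin_cases i <;> norm_num [v110]
      rw [← mul_assoc, ← mul_assoc]
      refine mul_le_mul_of_nonpos_right ?_ hg0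
      rw [one_div_mul_one_div, div_mul_eq_mul_div, one_mul, mul_div_assoc',
        div_le_div_iff₀ hu0 (by positivity)]
      have h1 := (Nat.cast_le (α := ℝ)).2 (Nat.div_mul_le_self (a N) (3 * 2 ^ bitsT))
      push_cast at h1
      nlinarith
  refine h0.trans (le_trans (add_le_add (add_le_add hsec' hfac') le_rfl) (hmass.trans ?_))
  refine le_trans ?_ hfam
  rw [div_eq_mul_one_div, mul_comm]
  exact mul_le_mul_of_nonneg_left ha3 (by positivity)

end Vale.Agent.P154.NegTrans
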