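import Vale.Agent.P154.NegTrans.Check
import Vale.Agent.P154.NegTrans.Sector

/-!
The tables bound the points passed through the channel; the upper bounds of the masses.
-/

namespace Vale.Agent.P154.NegTrans

open Finset D4

variable {c : Cfg} {dst : D4.Lat} {g : (Fin 3 → ℝ) → ℝ}

lemma bound_cast {K' : ℕ} {acc : ℕ × ℕ} {S T : ℝ} (h : Bound dst K' g acc S) (e : S = T) :
    Bound dst K' g acc T := e ▸ h

lemma rowSum_bound' (hd : dst.good = true) {den : ℕ} (hden : 0 < den) (V : ℕ → Fin 3 → ℕ)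
    (K K' m A row : ℕ) (hg : Test g) :
    ∀ (B : ℕ) (xs : List ℕ), okList dst den V B xs = true →
      Bound dst K' g (rowSum K K' dst.reps.length m A row B xs)
        (∑ i ∈ range xs.length, ((mult m A (B + i) * digit K row (B + i) : ℕ) : ℝ) *
          g fun j => (V (B + i) j : ℝ) / den) := by
  intro B xs
  induction xs generalizing B with
  | nil => intro _; simpa [rowSum] using Bound.zero K' g
  | cons x xs ih =>
    intro h
    simp only [okList, Bool.and_eq_true] at h
    refine bound_cast ((Bound.entry hd K' (mult m A B * digit K row B) hden h.1 hg).add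
      (ih (B + 1) h.2)) ?_
    simp only [List.length_cons, sum_range_succ', add_zero]
    rw [add_comm (∑ _ ∈ range _, _)]
    congr 1
    exact sum_congr rfl fun i _ => by rw [Nat.add_right_comm, Nat.add_assoc]

lemma faceSum_bound' (hd : dst.good = true) {den : ℕ} (hden : 0 < den) (V : ℕ → Fin 3 → ℕ)
    (K K' D : ℕ) (hg : Test g) : ∀ (s : ℕ) (xs : List ℕ), okList dst den V s xs = true →
    Bound dst K' g (faceSum K K' dst.reps.length D s xs)
      (∑ i ∈ range xs.length, ((3 * digit K D (s + i) : ℕ) : ℝ) *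
        g fun j => (V (s + i) j : ℝ) / den) := by
  intro s xs
  induction xs generalizing s with
  | nil => intro _; simpa [faceSum] using Bound.zero K' g
  | cons x xs ih =>
    intro h
    simp only [okList, Bool.and_eq_true] at h
    refine bound_cast ((Bound.entry hd K' (3 * digit K D s) hden h.1 hg).add (ih (s + 1) h.2)) ?_
    simp only [List.length_cons, sum_range_succ', add_zero]
    rw [add_comm (∑ _ ∈ range _, _)]
    congr 1
    exact sum_congr rfl fun i _ => by rw [Nat.add_right_comm, Nat.add_assoc]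

lemma digit_row {K w N A B : ℕ} (hB : B < w) :
    digit K ((N >>> (K * (A * w))) &&& (2 ^ (K * w) - 1)) B = digit K N (A * w + B) := by
  rw [digit_nest K w N A hB]
  refine congrArg (fun y => digit K y B) ?_
  rw [digit, show K * (A * w) = K * w * A by ring]

/-- The sum over the sector of the slots. -/
noncomputable def Cfg.secSum (c : Cfg) (N : ℕ) (f : ℕ → ℕ → ℝ) : ℝ :=
  ∑ A ∈ range (c.C + 1), ∑ i ∈ range (c.C + 1 - A),
    ((mult c.C A (A + i) * digit c.K N (A * c.w + (A + i)) : ℕ) : ℝ) * f A (A + i)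

lemma allRows_bound' (hd : dst.good = true) (hp : 0 < 3 * c.lq * c.src.p ^ c.C) (K' N : ℕ)
    (hg : Test g) : ∀ (A : ℕ) (ts : List (List ℕ)), c.okRows dst A ts = true →
    Bound dst K' g (allRows c.K K' dst.reps.length c.C c.w N A ts)
      (∑ j ∈ range ts.length, ∑ i ∈ range (c.C + 1 - (A + j)),
        ((mult c.C (A + j) (A + j + i) * digit c.K N ((A + j) * c.w + (A + j + i)) : ℕ) : ℝ) *
          g fun k => (c.secV (A + j) (A + j + i) k : ℝ) /
            ((3 * c.lq * c.src.p ^ c.C : ℕ) : ℝ)) := by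
  intro A ts
  induction ts generalizing A with
  | nil => intro _; simpa [allRows] using Bound.zero K' g
  | cons r rs ih =>
    intro h
    simp only [Cfg.okRows, Bool.and_eq_true, decide_eq_true_eq] at h
    have h0 := rowSum_bound' hd hp (c.secV A) c.K K' c.C A
      ((N >>> (c.K * (A * c.w))) &&& (2 ^ (c.K * c.w) - 1)) hg A r h.1.2
    have hr : c.C + 1 - A = r.length := by omega
    refine bound_cast (h0.add (ih (A + 1) h.2)) ?_
    simp only [List.length_cons, sum_range_succ', add_zero, hr]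
    rw [add_comm (∑ _ ∈ range rs.length, _)]
    congr 1
    · refine sum_congr rfl fun i hi => ?_
      rw [digit_row (by have := mem_range.1 hi; simp [Cfg.w]; omega)]
    · refine sum_congr rfl fun j _ => ?_
      rw [show A + (j + 1) = A + 1 + j by omega]

lemma up_le (hc : c.src.good = true) (n : ℕ) :
    c.src.t ^ (-(n : ℤ)) ≤ (c.up n : ℝ) / unitP := by
  have hp : 0 < c.src.p := by exact_mod_cast (D4.Lat.good.p_pos hc).1
  have h := (Nat.cast_le (α := ℝ)).2 (Nat.lt_div_mul_add (a := 2 ^ bitsW * c.src.q ^ n)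
    (pow_pos hp n)).le
  have hu : ((2 : ℝ) ^ bitsW) = unitP := rfl
  push_cast [hu] at h
  rw [le_div_iff₀ unitP_pos, zpow_neg, zpow_natCast, D4.Lat.t, div_pow, inv_div,
    div_mul_eq_mul_div, div_le_iff₀ (pow_pos (D4.Lat.good.p_pos hc).1 n), Cfg.up]
  push_cast
  linarith

lemma rowCol_eq (A row : ℕ) : ∀ (n B : ℕ), c.rowCol A row B n = ∑ i ∈ range n,
    mult c.C A (B + i) * digit c.K row (B + i) *
      (c.up (c.C - A) + c.up (c.C - (B + i)) + 2 ^ bitsW)
  | 0, _ => rfl
  | n + 1, B => by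
    rw [Cfg.rowCol, rowCol_eq A row n (B + 1), sum_range_succ']
    refine congrArg₂ (· + ·) (sum_congr rfl fun i _ => ?_) rfl
    rw [show B + 1 + i = B + (i + 1) by omega]

lemma allCol_eq (N : ℕ) : ∀ (n A : ℕ), A + n ≤ c.C + 1 → c.allCol N A n = ∑ j ∈ range n,
    ∑ i ∈ range (c.C + 1 - (A + j)),
      mult c.C (A + j) (A + j + i) * digit c.K N ((A + j) * c.w + (A + j + i)) *
        (c.up (c.C - (A + j)) + c.up (c.C - (A + j + i)) + 2 ^ bitsW)
  | 0, _, _ => rfl
  | n + 1, A, h => by
    rw [Cfg.allCol, allCol_eq N n (A + 1) (by omega), rowCol_eq, sum_range_succ']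
    refine congrArg₂ (· + ·) (sum_congr rfl fun j _ => ?_) (sum_congr rfl fun i hi => ?_)
    · rw [show A + 1 + j = A + (j + 1) by omega]
    · rw [digit_row (by have := mem_range.1 hi; simp [Cfg.w]; omega)]; rfl

/-- The factor of a slot of the face in the bound of the mass. -/
def Cfg.upFace (c : Cfg) (s : ℕ) : ℕ :=
  (if s ≤ c.C then c.up (c.C - s)
    else 2 ^ bitsW * c.src.p ^ (s - c.C) / c.src.q ^ (s - c.C) + 1) + 2 ^ bitsW

lemma faceCol_eq (D : ℕ) : ∀ (n s : ℕ), c.faceCol D s n =
    ∑ i ∈ range n, 3 * digit c.K D (s + i) * c.upFace (s + i)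
  | 0, _ => rfl
  | n + 1, s => by
    rw [Cfg.faceCol, faceCol_eq D n (s + 1), sum_range_succ']
    refine congrArg₂ (· + ·) (sum_congr rfl fun i _ => ?_) rfl
    rw [show s + 1 + i = s + (i + 1) by omega]

lemma upFace_ge (hc : c.src.good = true) (s : ℕ) :
    c.src.t ^ ((s : ℤ) - c.C) + 1 ≤ (c.upFace s : ℝ) / unitP := by
  have hu : ((2 : ℝ) ^ bitsW) = unitP := rfl
  have hu0 := unitP_pos
  rw [Cfg.upFace, Nat.cast_add, add_div, Nat.cast_pow, Nat.cast_ofNat, hu, div_self hu0.ne']
  refine add_le_add ?_ le_rfl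
  split_ifs with h
  · rw [show (s : ℤ) - c.C = -((c.C - s : ℕ) : ℤ) by omega]
    exact up_le hc _
  · rw [show (s : ℤ) - c.C = ((s - c.C : ℕ) : ℤ) by omega, zpow_natCast, D4.Lat.t, div_pow]
    have hq : 0 < c.src.q := by exact_mod_cast (D4.Lat.good.p_pos hc).2
    have h1 := (Nat.cast_le (α := ℝ)).2 (Nat.lt_div_mul_add
      (a := 2 ^ bitsW * c.src.p ^ (s - c.C)) (pow_pos hq (s - c.C))).le
    push_cast [hu] at h1
    rw [le_div_iff₀ hu0, div_mul_eq_mul_div,
      div_le_iff₀ (pow_pos (D4.Lat.good.p_pos hc).2 _)]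
    push_cast
    linarith

end Vale.Agent.P154.NegTrans
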