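import Vale.Agent.P154.NegTrans.Law

/-!
Thinning: `chanV (μ * lam₀)` is a mixture of `chanV lam₀` and no information, so Poisson trees of
parameters `(d, μ * lam₀)` are less informative than those of parameters `(D, lam₀)`, `d * μ ≤ D`;
and more depth gives less information.
-/

namespace Vale.Agent.P154.NegTrans

open Finset Tr D4

/-- Binomial averages of a sequence. -/
noncomputable def bin (μ : ℝ) : ℕ → (ℕ → ℝ) → ℝ
  | 0, a => a 0
  | k + 1, a => bin μ k fun j => μ * a (j + 1) + (1 - μ) * a j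

variable {μ : ℝ}

lemma bin_mono (h0 : 0 ≤ μ) (h1 : μ ≤ 1) : ∀ (k : ℕ) {a b : ℕ → ℝ}, (∀ j, a j ≤ b j) →
    bin μ k a ≤ bin μ k b
  | 0, _, _, h => h 0
  | k + 1, _, _, h => bin_mono h0 h1 k fun _ => add_le_add
      (mul_le_mul_of_nonneg_left (h _) h0) (mul_le_mul_of_nonneg_left (h _) (sub_nonneg.2 h1))

lemma bin_le (h0 : 0 ≤ μ) : ∀ (k : ℕ) {a : ℕ → ℝ}, Monotone a → μ ≤ 1 → bin μ k a ≤ a k
  | 0, _, _, _ => le_rfl
  | k + 1, a, ha, h1 => by
    refine (bin_le h0 k (a := fun j => μ * a (j + 1) + (1 - μ) * a j) ?_ h1).trans ?_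
    · intro i j hij
      exact add_le_add (mul_le_mul_of_nonneg_left (ha (by omega)) h0)
        (mul_le_mul_of_nonneg_left (ha hij) (sub_nonneg.2 h1))
    · nlinarith [mul_le_mul_of_nonneg_left (ha (Nat.le_succ k)) (sub_nonneg.2 h1)]

lemma bin_abs_le (h0 : 0 ≤ μ) (h1 : μ ≤ 1) : ∀ (k : ℕ) {a : ℕ → ℝ} {B : ℝ},
    (∀ j, |a j| ≤ B) → |bin μ k a| ≤ B
  | 0, _, _, h => h 0
  | k + 1, a, B, h => bin_abs_le h0 h1 k fun j => by
    refine (abs_add_le _ _).trans ?_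
    rw [abs_mul, abs_mul, abs_of_nonneg h0, abs_of_nonneg (sub_nonneg.2 h1)]
    nlinarith [mul_le_mul_of_nonneg_left (h (j + 1)) h0,
      mul_le_mul_of_nonneg_left (h j) (sub_nonneg.2 h1)]

lemma ev_bin {α : Type*} {W : α → ℝ} (hW : Prob1 W) (h0 : 0 ≤ μ) (h1 : μ ≤ 1) :
    ∀ (k : ℕ) {a : α → ℕ → ℝ} {B : ℝ}, (∀ t j, |a t j| ≤ B) →
      ev W (fun t => bin μ k (a t)) = bin μ k fun j => ev W fun t => a t j
  | 0, _, _, _ => rfl
  | k + 1, a, B, h => by
    have hb : ∀ (c : ℝ) t j, |c * a t j| ≤ |c| * B := fun c t j => by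
      rw [abs_mul]; exact mul_le_mul_of_nonneg_left (h t j) (abs_nonneg c)
    simp only [bin]
    rw [ev_bin hW h0 h1 k (a := fun t j => μ * a t (j + 1) + (1 - μ) * a t j)
      fun t j => (abs_add_le _ _).trans (add_le_add (hb μ t _) (hb (1 - μ) t _))]
    refine congrArg _ (funext fun j => ?_)
    rw [ev_add hW (fun t => hb μ t _) (fun t => hb (1 - μ) t _), ev_mul_left, ev_mul_left]

lemma pois_step (a : ℝ) (i : ℕ) : GW.pois a (i + 1) * (i + 1 : ℕ) = a * GW.pois a i := by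
  simp only [GW.pois, Nat.factorial_succ, Nat.cast_mul, pow_succ]
  field_simp

/-- Thinning of a Poisson number. -/
lemma pois_bin (d μ : ℝ) : ∀ (k : ℕ) (a : ℕ → ℝ), GW.pois d k * bin μ k a =
    ∑ p ∈ antidiagonal k, GW.pois (d * μ) p.1 * GW.pois (d * (1 - μ)) p.2 * a p.1
  | 0, a => by
    simp only [GW.pois, bin, Nat.antidiagonal_zero, sum_singleton, pow_zero, Nat.factorial_zero,
      Nat.cast_one, div_one, mul_one, ← Real.exp_add]
    ring_nf
  | k + 1, a => by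
    set P := GW.pois (d * μ)
    set Q := GW.pois (d * (1 - μ))
    have hk : ((k + 1 : ℕ) : ℝ) ≠ 0 := Nat.cast_ne_zero.2 k.succ_ne_zero
    refine mul_left_cancel₀ hk ?_
    rw [show ((k + 1 : ℕ) : ℝ) * (GW.pois d (k + 1) * bin μ (k + 1) a) =
      GW.pois d (k + 1) * (k + 1 : ℕ) * bin μ (k + 1) a by ring, pois_step, bin, mul_assoc,
      pois_bin d μ k, mul_sum, mul_sum]
    have hP : ∀ p : ℕ × ℕ,
        d * (P p.1 * Q p.2 * (μ * a (p.1 + 1) + (1 - μ) * a p.1)) =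
          P (p.1 + 1) * Q p.2 * a (p.1 + 1) * (p.1 + 1 : ℕ) +
            P p.1 * Q (p.2 + 1) * a p.1 * (p.2 + 1 : ℕ) := fun p => by
      have e1 := pois_step (d * μ) p.1
      have e2 := pois_step (d * (1 - μ)) p.2
      linear_combination (-(Q p.2 * a (p.1 + 1))) * e1 - P p.1 * a p.1 * e2
    refine (sum_congr rfl fun p _ => hP p).trans ?_
    rw [sum_add_distrib]
    have hsplit : ∀ p ∈ antidiagonal (k + 1), ((k + 1 : ℕ) : ℝ) * (P p.1 * Q p.2 * a p.1) =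
        P p.1 * Q p.2 * a p.1 * (p.1 : ℕ) + P p.1 * Q p.2 * a p.1 * (p.2 : ℕ) := fun p hp => by
      rw [← mem_antidiagonal.1 hp]; push_cast; ring
    rw [sum_congr rfl hsplit, sum_add_distrib]
    congr 1
    · rw [Finset.Nat.sum_antidiagonal_succ]
      simp
    · rw [Finset.Nat.sum_antidiagonal_succ']
      simp

lemma pois_thin {d : ℝ} (hd : 0 ≤ d) (h0 : 0 ≤ μ) (h1 : μ ≤ 1) {a : ℕ → ℝ} {B : ℝ}
    (ha : ∀ j, |a j| ≤ B) :
    ev (GW.pois d) (fun k => bin μ k a) = ev (GW.pois (d * μ)) a := by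
  have hP : ∀ x, 0 ≤ x → Prob1 (GW.pois x) := fun x hx => ⟨GW.pois_nonneg hx, GW.hasSum_pois x⟩
  have hdm := mul_nonneg hd h0
  have hdn := mul_nonneg hd (sub_nonneg.2 h1)
  have hf := ev_summable (hP _ hdm) ha
  have hg := (hP _ hdn).sum.summable
  have h := hf.tsum_mul_tsum_eq_tsum_sum_antidiagonal hg
    (summable_mul_of_summable_norm hf.norm hg.norm)
  rw [(hP _ hdn).sum.tsum_eq, mul_one] at h
  simp only [ev]
  rw [h]
  refine tsum_congr fun k => ?_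
  rw [pois_bin]
  exact sum_congr rfl fun p _ => by ring

/-- More children, more information. -/
lemma pois_le {d d' : ℝ} (hd : 0 ≤ d) (hdd : d ≤ d') {a : ℕ → ℝ} (ha : Monotone a) {B : ℝ}
    (hB : ∀ j, |a j| ≤ B) : ev (GW.pois d) a ≤ ev (GW.pois d') a := by
  rcases (hd.trans hdd).eq_or_lt with h | h
  · rw [le_antisymm hdd (h ▸ hd)]
  have h0 : 0 ≤ d / d' := div_nonneg hd h.le
  have h1 : d / d' ≤ 1 := (div_le_one h).2 hdd
  nth_rewrite 1 [show d = d' * (d / d') by field_simp]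
  rw [← pois_thin h.le h0 h1 hB]
  exact ev_le_ev ⟨GW.pois_nonneg h.le, GW.hasSum_pois d'⟩ (fun k => bin_abs_le h0 h1 k hB) hB
    fun k => bin_le h0 k ha h1

variable {lam₁ lam₂ d₁ d₂ : ℝ} {h₁ : -1 ≤ lam₁ * (((3 : ℕ) : ℝ) - 1)} {h₁' : lam₁ ≤ 1}
  {h₂ : -1 ≤ lam₂ * (((3 : ℕ) : ℝ) - 1)} {h₂' : lam₂ ≤ 1} {n₁ n₂ : ℕ} {G : (Fin 3 → ℝ) → ℝ}

/-- A comparison of edges passes to the combinations. -/
lemma fib_compare (hd₁ : 0 ≤ d₁) (hd₂ : 0 ≤ d₂) (h0 : 0 ≤ μ) (h1 : μ ≤ 1)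
    (he : ∀ g, SubP g →
      edge h₁ h₁' d₁ n₁ g ≤ μ * edge h₂ h₂' d₂ n₂ g + (1 - μ) * g fun _ => 1) :
    ∀ (k : ℕ) (G : (Fin 3 → ℝ) → ℝ), SubP G → fib lam₁ h₁ h₁' d₁ n₁ k G ≤
      bin μ k fun j => fib lam₂ h₂ h₂' d₂ n₂ j G := by
  intro k
  induction k with
  | zero => intro G _; exact le_of_eq ((fib_zero hd₁).trans (fib_zero hd₂).symm)
  | succ k ih =>
    intro G hG
    obtain ⟨C, hC⟩ := subP_bound hG
    rw [fib_cons hd₁ hG]
    refine (ev_le_ev (prob1_gw hd₁ n₁) (fun t => fib_slot_abs_le hd₁ hC _)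
      (fun t => bin_abs_le h0 h1 k fun j => fib_slot_abs_le hd₂ hC _)
      fun t => ih _ (subP_slot hG _)).trans ?_
    rw [ev_bin (prob1_gw hd₁ n₁) h0 h1 k fun t j => fib_slot_abs_le hd₂ hC _, bin]
    refine bin_mono h0 h1 k fun j => ?_
    rw [slot_swap hd₂ hd₁ hG, fib_succ_edge hd₂ hG]
    unfold fib
    rw [← ev_mul_left, ← ev_mul_left, ← ev_add (prob1_kidW hd₂ n₂ j) (B := |μ| * (C * 3))
      (fun x => ?_) (B' := |1 - μ| * (C * 3)) fun x => ?_]
    rotate_left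
    · rw [abs_mul]; exact mul_le_mul_of_nonneg_left (edge_slot_abs_le hd₂ hC _) (abs_nonneg _)
    · rw [abs_mul]; exact mul_le_mul_of_nonneg_left (ens_bound hC _) (abs_nonneg _)
    refine ev_le_ev (prob1_kidW hd₂ n₂ j) (fun x => edge_slot_abs_le hd₁ hC _)
      (B' := |μ| * (C * 3) + |1 - μ| * (C * 3)) (fun x => ?_) fun x => ?_
    · refine (abs_add_le _ _).trans (add_le_add ?_ ?_)
      · rw [abs_mul]; exact mul_le_mul_of_nonneg_left (edge_slot_abs_le hd₂ hC _) (abs_nonneg _)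
      · rw [abs_mul]; exact mul_le_mul_of_nonneg_left (ens_bound hC _) (abs_nonneg _)
    · refine (he _ (subP_slot hG _)).trans (le_of_eq ?_)
      rw [slot_one]

lemma root_compare (hd₁ : 0 ≤ d₁) (hd₂ : 0 ≤ d₂) (h0 : 0 ≤ μ) (h1 : μ ≤ 1) (hle : d₁ * μ ≤ d₂)
    (he : ∀ g, SubP g →
      edge h₁ h₁' d₁ n₁ g ≤ μ * edge h₂ h₂' d₂ n₂ g + (1 - μ) * g fun _ => 1) (hG : SubP G) :
    root h₁ h₁' d₁ (n₁ + 1) G ≤ root h₂ h₂' d₂ (n₂ + 1) G := by
  obtain ⟨C, hC⟩ := subP_bound hG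
  have hP : Prob1 (GW.pois d₁) := ⟨GW.pois_nonneg hd₁, GW.hasSum_pois d₁⟩
  rw [root_succ hd₁ hG, root_succ hd₂ hG]
  refine (ev_le_ev hP (fun k => fib_abs_le hd₁ hC)
    (fun k => bin_abs_le h0 h1 k fun j => fib_abs_le hd₂ hC)
    fun k => fib_compare hd₁ hd₂ h0 h1 he k G hG).trans ?_
  rw [pois_thin hd₁ h0 h1 fun j => fib_abs_le hd₂ hC]
  exact pois_le (mul_nonneg hd₁ h0) hle (fib_mono hd₂ hG) fun j => fib_abs_le hd₂ hC

lemma chanV_mixture (μ lam : ℝ) (w : Fin 3 → ℝ) :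
    chanV (μ * lam) w = μ • chanV lam w + ((1 - μ) * mean w) • fun _ => (1 : ℝ) := by
  funext i
  simp [chanV]
  ring

/-- One edge of parameter `μ * lam` is below the mixture of an edge of parameter `lam` and no
information. -/
lemma S_chan_mixture {lam : ℝ} (hg : SubP G) (h : -1 ≤ lam * (((3 : ℕ) : ℝ) - 1)) (h' : lam ≤ 1)
    (h0 : 0 ≤ μ) (h1 : μ ≤ 1) (e : Ens 3) :
    (e.S fun w => G (chanV (μ * lam) w)) ≤
      (μ * e.S fun w => G (chanV lam w)) + (1 - μ) * G fun _ => 1 := by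
  refine le_trans (b := e.S fun w =>
    μ * G (chanV lam w) + (1 - μ) * G (fun _ => 1) * mean w) ?_ (le_of_eq ?_)
  · refine sum_le_sum fun x _ => ?_
    have hn := chanV_nn h h' (e.nonneg x)
    have hmn : 0 ≤ (1 - μ) * mean (e.L x) :=
      mul_nonneg (sub_nonneg.2 h1) (mean_nonneg (e.nonneg x))
    simp only [chanV_mixture μ lam]
    refine (hg.add (μ • chanV lam (e.L x))
      (((1 - μ) * mean (e.L x)) • fun _ => (1 : ℝ)) (fun i => mul_nonneg h0 (hn i))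
      fun i => mul_nonneg hmn zero_le_one).trans (le_of_eq ?_)
    rw [hg.smul μ h0 _ hn, hg.smul _ hmn _ fun _ => zero_le_one]
    ring
  · simp only [Ens.S, sum_add_distrib, ← mul_sum]
    congr 1
    have := ens_mean e
    rw [Ens.S] at this
    rw [this, mul_one]

/-- Poisson trees of parameters `(d, μ * lam)` are less informative than of `(D, lam)`. -/
theorem root_dominated {lam d D : ℝ} (h : -1 ≤ lam * (((3 : ℕ) : ℝ) - 1)) (h' : lam ≤ 1)
    (hm : -1 ≤ μ * lam * (((3 : ℕ) : ℝ) - 1)) (hm' : μ * lam ≤ 1) (hd : 0 ≤ d) (hD : 0 ≤ D)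
    (h0 : 0 ≤ μ) (h1 : μ ≤ 1) (hle : d * μ ≤ D) :
    ∀ (n : ℕ) (G : (Fin 3 → ℝ) → ℝ), SubP G → root hm hm' d n G ≤ root h h' D n G := by
  intro n
  induction n with
  | zero => intro G _; exact le_of_eq rfl
  | succ n ih =>
    intro G hG
    refine root_compare hd hD h0 h1 hle (fun g hg => ?_) hG
    obtain ⟨C, hC⟩ := subP_bound hg
    have hb : ∀ t, |μ * (treeE (μ * lam) hm hm' n t).S fun w => g (chanV lam w)| ≤ |μ| * (C * 3) :=
      fun t => by
        rw [abs_mul, ← Ens.S_chanE _ lam h h']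
        exact mul_le_mul_of_nonneg_left (ens_bound hC _) (abs_nonneg _)
    refine le_trans (b := ev (gwWeight d n) fun t =>
      (μ * (treeE (μ * lam) hm hm' n t).S fun w => g (chanV lam w)) + (1 - μ) * g fun _ => 1) ?_ ?_
    · refine ev_le_ev (prob1_gw hd n) (B := C * 3) (fun t => ?_)
        (fun t => (abs_add_le _ _).trans (add_le_add (hb t) le_rfl)) fun t => ?_
      · show |(treeE (μ * lam) hm hm' n t).S fun w => g (chanV (μ * lam) w)| ≤ _
        rw [← Ens.S_chanE _ (μ * lam) hm hm']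
        exact ens_bound hC _
      · exact S_chan_mixture hg h h' h0 h1 _
    · rw [ev_add_const (prob1_gw hd n) hb, ev_mul_left]
      exact add_le_add (mul_le_mul_of_nonneg_left (ih _ (subP_chan hg h h')) h0) le_rfl

/-- More depth, less information. -/
theorem root_antitone {lam d : ℝ} (h : -1 ≤ lam * (((3 : ℕ) : ℝ) - 1)) (h' : lam ≤ 1)
    (hd : 0 ≤ d) : ∀ (n : ℕ) (G : (Fin 3 → ℝ) → ℝ), SubP G →
      root h h' d (n + 1) G ≤ root h h' d n G := by
  intro n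
  induction n with
  | zero =>
    intro G hG
    obtain ⟨C, hC⟩ := subP_bound hG
    have : root h h' d 0 G = (Ens.leaf 3).S G := by
      rw [root]; exact ev_const (prob1_gw hd 0) ((Ens.leaf 3).S G)
    rw [this, ← ev_const (prob1_gw hd 1) ((Ens.leaf 3).S G)]
    exact ev_le_ev (prob1_gw hd 1) (fun t => ens_bound hC _) (fun _ => le_rfl)
      fun t => le_leaf hG _
  | succ n ih =>
    intro G hG
    refine root_compare hd hd zero_le_one le_rfl (by rw [mul_one]) (fun g hg => ?_) hG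
    rw [one_mul, sub_self, zero_mul, add_zero]
    exact ih _ (subP_chan hg h h')

end Vale.Agent.P154.NegTrans
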